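import Vale.Agent.P218XI.Cyl
import Vale.Agent.P218EF.Fun

/-! Cylindrical ends at the level of functions. -/

open scoped Matrix Topology Real ContDiff
open Complex Filter Set

noncomputable section

set_option linter.unusedSectionVars false

namespace Vale.Agent.P218XI

open Vale.Agent.P218VA Vale.Agent.P218GA
open Vale.Agent.P218EN (pE Af xf ef Af' WA Jet Sol WEq)
open Vale.Agent.P218EF (jet1_congr)

section jets
variable {I : Set ℝ} {f f1 f2 f11 f12 f22 : ℝ × ℝ → ℂ} {c c1 c2 : ℝ → ℂ}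

lemma jet1_mulH (h : Jet1 I f f1 f2) (hc : ∀ w ∈ I, HasDerivAt c (c1 w) w)
    (hc1 : ContinuousOn c1 I) :
    Jet1 I (fun p => c p.1 * f p) (fun p => c p.1 * f1 p + c1 p.1 * f p)
      (fun p => c p.1 * f2 p) := by
  have k0 : ContinuousOn (fun p : ℝ × ℝ => c p.1) (I ×ˢ univ) :=
    ContinuousOn.comp (g := c) (fun w hw => (hc w hw).continuousAt.continuousWithinAt)
      continuousOn_fst fun _ hp => hp.1
  have k1 : ContinuousOn (fun p : ℝ × ℝ => c1 p.1) (I ×ˢ univ) :=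
    hc1.comp continuousOn_fst fun _ hp => hp.1
  exact
    { c0 := k0.mul h.c0
      c1 := (k0.mul h.c1).add (k1.mul h.c0)
      c2 := k0.mul h.c2
      dw := fun w hw θ => ((hc w (interior_subset hw)).mul (h.dw w hw θ)).congr_deriv (add_comm ..)
      dθ := fun w hw θ => (h.dθ w hw θ).const_mul (c w)
      per := fun w hw θ => by simp only [h.per w hw] }

lemma jet2_congr {F : Type*} [NormedAddCommGroup F] [NormedSpace ℝ F]
    {f f1 f2 f11 f12 f22 g g1 g2 g11 g12 g22 : ℝ × ℝ → F} (h : Jet2 I f f1 f2 f11 f12 f22)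
    (e : ∀ w ∈ I, ∀ θ, g (w, θ) = f (w, θ)) (e1 : ∀ w ∈ I, ∀ θ, g1 (w, θ) = f1 (w, θ))
    (e2 : ∀ w ∈ I, ∀ θ, g2 (w, θ) = f2 (w, θ)) (e11 : ∀ w ∈ I, ∀ θ, g11 (w, θ) = f11 (w, θ))
    (e12 : ∀ w ∈ I, ∀ θ, g12 (w, θ) = f12 (w, θ))
    (e22 : ∀ w ∈ I, ∀ θ, g22 (w, θ) = f22 (w, θ)) : Jet2 I g g1 g2 g11 g12 g22 :=
  ⟨jet1_congr h.j0 e e1 e2, jet1_congr h.j1 e1 e11 e12, jet1_congr h.j2 e2 e12 e22⟩

/-- multiplication by a function of the height -/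
lemma jet2_mulH (h : Jet2 I f f1 f2 f11 f12 f22) (hc : ∀ w ∈ I, HasDerivAt c (c1 w) w)
    (hc1 : ∀ w ∈ I, HasDerivAt c1 (c2 w) w) (hc2 : ContinuousOn c2 I) :
    Jet2 I (fun p => c p.1 * f p) (fun p => c p.1 * f1 p + c1 p.1 * f p) (fun p => c p.1 * f2 p)
      (fun p => c p.1 * f11 p + 2 * c1 p.1 * f1 p + c2 p.1 * f p)
      (fun p => c p.1 * f12 p + c1 p.1 * f2 p) (fun p => c p.1 * f22 p) := by
  have k1 : ContinuousOn c1 I := fun w hw => (hc1 w hw).continuousAt.continuousWithinAt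
  exact ⟨jet1_mulH h.j0 hc k1, jet1_congr ((jet1_mulH h.j1 hc k1).add (jet1_mulH h.j0 hc1 hc2))
    (fun _ _ _ => rfl) (fun _ _ _ => by ring) fun _ _ _ => rfl, jet1_mulH h.j2 hc k1⟩

lemma jet2_const_add (h : Jet2 I f f1 f2 f11 f12 f22) (z : ℂ) :
    Jet2 I (fun p => z + f p) f1 f2 f11 f12 f22 :=
  ⟨⟨continuousOn_const.add h.j0.c0, h.j0.c1, h.j0.c2, fun w hw θ => (h.j0.dw w hw θ).const_add z,
    fun w hw θ => (h.j0.dθ w hw θ).const_add z, fun w hw θ => by simp only [h.j0.per w hw]⟩,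
    h.j1, h.j2⟩

lemma jet2_kap (hI : ∀ w ∈ I, 0 < w) (h : Jet2 I f f1 f2 f11 f12 f22) :
    Jet2 I (fun p => kap p.1 * f p) (fun p => kap p.1 * (f1 p - xf p.1 * f p))
      (fun p => kap p.1 * f2 p)
      (fun p => kap p.1 * (f11 p - 2 * xf p.1 * f1 p + 3 * xf p.1 ^ 2 * f p))
      (fun p => kap p.1 * (f12 p - xf p.1 * f2 p)) (fun p => kap p.1 * f22 p) := by
  have k : ∀ w ∈ I, HasDerivAt (fun w => -(xf w * kap w)) (3 * xf w ^ 2 * kap w) w := fun w hw =>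
    ((hasDerivAt_xf (hI w hw)).mul (hasDerivAt_kap (hI w hw))).neg.congr_deriv (by ring)
  refine jet2_congr (jet2_mulH h (fun w hw => hasDerivAt_kap (hI w hw)) k fun w hw =>
    ((continuousAt_const.mul ((hasDerivAt_xf (hI w hw)).continuousAt.pow 2)).mul
      (hasDerivAt_kap (hI w hw)).continuousAt).continuousWithinAt)
    ?_ ?_ ?_ ?_ ?_ ?_ <;> intros <;> ring

/-- the jets of `U = √(1 - α w) (1 + η)` -/
lemma jet2_prof {α : ℂ} (hI : ∀ w ∈ I, 0 < w) (hv : ∀ w ∈ I, 1 - α * w ∈ slitPlane)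
    (h : Jet2 I f f1 f2 f11 f12 f22) :
    Jet2 I (fun p => prof α p.1 * (1 + f p))
      (fun p => prof α p.1 * (f1 p - (Af α p.1 - xf p.1) * (1 + f p)))
      (fun p => prof α p.1 * f2 p)
      (fun p => prof α p.1 * (f11 p - 2 * (Af α p.1 - xf p.1) * f1 p
        - (Af α p.1 - xf p.1) ^ 2 * (1 + f p)))
      (fun p => prof α p.1 * (f12 p - (Af α p.1 - xf p.1) * f2 p))
      (fun p => prof α p.1 * f22 p) := by
  have k0 := fun w hw => hasDerivAt_prof (hI w hw) (hv w hw)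
  have k1 := fun w hw => (hasDerivAt_Af (hI w hw) (slitPlane_ne_zero (hv w hw))).sub
    (hasDerivAt_xf (hI w hw))
  have k : ∀ w ∈ I, HasDerivAt (fun w => -((Af α w - xf w) * prof α w))
      (-((Af α w - xf w) ^ 2 * prof α w)) w := fun w hw =>
    ((k1 w hw).mul (k0 w hw)).neg.congr_deriv (by simp only [Af', Pi.sub_apply]; ring)
  refine jet2_congr (jet2_mulH (jet2_const_add h 1) k0 k fun w hw =>
    (((k1 w hw).continuousAt.pow 2).mul (k0 w hw).continuousAt).neg.continuousWithinAt)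
    ?_ ?_ ?_ ?_ ?_ ?_ <;> intros <;> ring

end jets

namespace Frame
variable (F : Frame) (w θ : ℝ) (U Uw Uθ Uww Uwθ Uθθ : ℂ)

/-- the position in terms of `U = √(8 w) t` -/
def Z : C3 := F.X w θ (kap w * U)
/-- its derivative in `U` -/
def ZU : C3 := kap w • F.Xt w θ (kap w * U)
/-- its derivative in `w` -/
def Za : C3 := F.a w θ (kap w * U) (kap w * (Uw - xf w * U))
/-- its derivative in `θ` -/
def Zb : C3 := F.b w θ (kap w * U) (kap w * Uθ)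
/-- its second derivative in `w` -/
def Zaa : C3 := F.aa w θ (kap w * U) (kap w * (Uw - xf w * U))
  (kap w * (Uww - 2 * xf w * Uw + 3 * xf w ^ 2 * U))
/-- its mixed derivative -/
def Zab : C3 := F.ab w θ (kap w * U) (kap w * (Uw - xf w * U)) (kap w * Uθ)
  (kap w * (Uwθ - xf w * Uθ))
/-- its second derivative in `θ` -/
def Zbb : C3 := F.bb w θ (kap w * U) (kap w * Uθ) (kap w * Uθθ)

lemma lam_kap {w : ℝ} (hw : 0 ≤ w) (U : ℂ) : 1 + (kap w * U) ^ 2 = 1 + ef 0 w * U ^ 2 := by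
  rw [mul_pow, kap_sq hw]

theorem jet2_Z {I : Set ℝ} (hI : ∀ w ∈ I, 0 < w) {U Uw Uθ Uww Uwθ Uθθ : ℝ × ℝ → ℂ}
    (hJ : Jet2 I U Uw Uθ Uww Uwθ Uθθ)
    (h : ∀ p ∈ I ×ˢ (univ : Set ℝ), 1 + ef 0 p.1 * U p ^ 2 ≠ 0) :
    Jet2 I (fun p => F.Z p.1 p.2 (U p)) (fun p => F.Za p.1 p.2 (U p) (Uw p))
      (fun p => F.Zb p.1 p.2 (U p) (Uθ p)) (fun p => F.Zaa p.1 p.2 (U p) (Uw p) (Uww p))
      (fun p => F.Zab p.1 p.2 (U p) (Uw p) (Uθ p) (Uwθ p))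
      (fun p => F.Zbb p.1 p.2 (U p) (Uθ p) (Uθθ p)) :=
  F.jet2 hI (jet2_kap hI hJ) fun p hp => by rw [lam_kap (hI _ hp.1).le]; exact h p hp

lemma hasDerivAt_ZU {U : ℝ → ℂ} {U' : ℂ} {s w : ℝ} (hw : 0 ≤ w) (hU : HasDerivAt U U' s)
    (h : 1 + ef 0 w * U s ^ 2 ≠ 0) :
    HasDerivAt (fun s => F.Z w θ (U s)) (U' • F.ZU w θ (U s)) s :=
  (F.hasDerivAt_Xt (hU.const_mul _) (by rwa [lam_kap hw])).congr_deriv (by
    rw [ZU, smul_smul, mul_comm])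

section point
variable {U : ℝ × ℝ → ℂ} {p : ℝ × ℝ}

lemma contDiffAt_Z {k : WithTop ℕ∞} (hk : k ≤ ∞) (hU : ContDiffAt ℝ k U p) (h0 : 0 < p.1)
    (h : 1 + ef 0 p.1 * U p ^ 2 ≠ 0) : ContDiffAt ℝ k (fun q : ℝ × ℝ => F.Z q.1 q.2 (U q)) p :=
  F.contDiffAt_X hk contDiffAt_fst contDiffAt_snd
    ((((contDiffAt_kap h0).of_le hk).comp p contDiffAt_fst).mul hU) h0 (by rwa [lam_kap h0.le])

lemma pd_kap1 (hU : ContDiffAt ℝ 1 U p) (h0 : 0 < p.1) :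
    pd (fun q : ℝ × ℝ => kap q.1 * U q) (1, 0) p = kap p.1 * (pd U (1, 0) p - xf p.1 * U p) ∧
    pd (fun q : ℝ × ℝ => kap q.1 * U q) (0, 1) p = kap p.1 * pd U (0, 1) p := by
  obtain ⟨w, θ⟩ := p
  have h1 := ((((contDiffAt_kap h0).of_le one_le_inf).comp (w, θ) contDiffAt_fst).mul
    hU).differentiableAt one_ne_zero
  have hd := hU.differentiableAt one_ne_zero
  exact ⟨(hasDerivAt_fst h1).unique (((hasDerivAt_kap h0).mul (hasDerivAt_fst hd)).congr_deriv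
    (by ring)), (hasDerivAt_snd h1).unique ((hasDerivAt_snd hd).const_mul (kap w))⟩

lemma pd_kap2 (hU : ContDiffAt ℝ 2 U p) (h0 : 0 < p.1) :
    pd (pd (fun q : ℝ × ℝ => kap q.1 * U q) (1, 0)) (1, 0) p = kap p.1 *
      (pd (pd U (1, 0)) (1, 0) p - 2 * xf p.1 * pd U (1, 0) p + 3 * xf p.1 ^ 2 * U p) ∧
    pd (pd (fun q : ℝ × ℝ => kap q.1 * U q) (1, 0)) (0, 1) p = kap p.1 *
      (pd (pd U (1, 0)) (0, 1) p - xf p.1 * pd U (0, 1) p) ∧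
    pd (pd (fun q : ℝ × ℝ => kap q.1 * U q) (0, 1)) (0, 1) p
      = kap p.1 * pd (pd U (0, 1)) (0, 1) p := by
  have hX := (((contDiffAt_kap h0).of_le two_le_inf).comp p contDiffAt_fst).mul hU
  have ev : ∀ᶠ q in 𝓝 p,
      pd (fun q : ℝ × ℝ => kap q.1 * U q) (1, 0) q = kap q.1 * (pd U (1, 0) q - xf q.1 * U q) ∧
      pd (fun q : ℝ × ℝ => kap q.1 * U q) (0, 1) q = kap q.1 * pd U (0, 1) q := by
    filter_upwards [hU.eventually (by simp),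
      continuous_fst.continuousAt.eventually (lt_mem_nhds h0)] with q h1 h3
    exact pd_kap1 (h1.of_le (by norm_num)) h3
  obtain ⟨w, θ⟩ := p
  have hd := hU.differentiableAt (by norm_num)
  have e1 := (by fun_prop : ContinuousAt (fun s : ℝ => (s, θ)) w).eventually ev
  have e2 := (by fun_prop : ContinuousAt (fun s : ℝ => (w, s)) θ).eventually ev
  refine ⟨(hasDerivAt_fst (differentiableAt_pd hX _)).unique ?_,
    (hasDerivAt_snd (differentiableAt_pd hX _)).unique ?_,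
    (hasDerivAt_snd (differentiableAt_pd hX _)).unique ?_⟩
  · refine (((hasDerivAt_kap h0).mul ((hasDerivAt_fst (differentiableAt_pd hU _)).sub
      ((hasDerivAt_xf h0).mul (hasDerivAt_fst hd)))).congr_of_eventuallyEq
      (e1.mono fun s hs => hs.1)).congr_deriv ?_
    simp only [Pi.sub_apply, Pi.mul_apply]
    ring
  · exact (((hasDerivAt_snd (differentiableAt_pd hU _)).sub
      ((hasDerivAt_snd hd).const_mul _)).const_mul _).congr_of_eventuallyEq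
      (e2.mono fun s hs => hs.1)
  · exact ((hasDerivAt_snd (differentiableAt_pd hU _)).const_mul _).congr_of_eventuallyEq
      (e2.mono fun s hs => hs.2)

lemma pd_Z1 (hU : ContDiffAt ℝ 1 U p) (h0 : 0 < p.1) (h : 1 + ef 0 p.1 * U p ^ 2 ≠ 0) :
    pd (fun q : ℝ × ℝ => F.Z q.1 q.2 (U q)) (1, 0) p = F.Za p.1 p.2 (U p) (pd U (1, 0) p) ∧
    pd (fun q : ℝ × ℝ => F.Z q.1 q.2 (U q)) (0, 1) p = F.Zb p.1 p.2 (U p) (pd U (0, 1) p) := by
  have k := F.pd_X1 ((((contDiffAt_kap h0).of_le one_le_inf).comp p contDiffAt_fst).mul hU) h0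
    (by rwa [Function.comp, lam_kap h0.le])
  obtain ⟨e1, e2⟩ := pd_kap1 hU h0
  simp only [Function.comp, e1, e2] at k
  exact k

lemma pd_Z2 (hU : ContDiffAt ℝ 2 U p) (h0 : 0 < p.1) (h : 1 + ef 0 p.1 * U p ^ 2 ≠ 0) :
    pd (pd (fun q : ℝ × ℝ => F.Z q.1 q.2 (U q)) (1, 0)) (1, 0) p
      = F.Zaa p.1 p.2 (U p) (pd U (1, 0) p) (pd (pd U (1, 0)) (1, 0) p) ∧
    pd (pd (fun q : ℝ × ℝ => F.Z q.1 q.2 (U q)) (1, 0)) (0, 1) p
      = F.Zab p.1 p.2 (U p) (pd U (1, 0) p) (pd U (0, 1) p) (pd (pd U (1, 0)) (0, 1) p) ∧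
    pd (pd (fun q : ℝ × ℝ => F.Z q.1 q.2 (U q)) (0, 1)) (0, 1) p
      = F.Zbb p.1 p.2 (U p) (pd U (0, 1) p) (pd (pd U (0, 1)) (0, 1) p) := by
  have k := F.pd_X2 ((((contDiffAt_kap h0).of_le two_le_inf).comp p contDiffAt_fst).mul hU) h0
    (by rwa [Function.comp, lam_kap h0.le])
  obtain ⟨e1, e2⟩ := pd_kap1 (hU.of_le (by norm_num)) h0
  obtain ⟨e3, e4, e5⟩ := pd_kap2 hU h0
  simp only [Function.comp, e1, e2, e3, e4, e5] at k
  exact k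

end point

end Frame

namespace IsCyl
variable {F : Frame} (hF : IsCyl F) {w : ℝ} (hw : 0 < w) (θ : ℝ)
include hF hw

/-- the shrinker operator in absolute form -/
theorem PP_Z {U : ℂ} (hl : 1 + ef 0 w * U ^ 2 ≠ 0) (Uw Uθ Uww Uwθ Uθθ : ℂ) :
    PP (F.Z w θ U) (F.Za w θ U Uw) (F.Zb w θ U Uθ) (F.Zaa w θ U Uw Uww) (F.Zab w θ U Uw Uθ Uwθ)
      (F.Zbb w θ U Uθ Uθθ) = F.sg θ * (-16 * ef 0 w *
        pE (xf w) (xf w) (ef 0 w) 1 (U - 1) Uθ Uθθ (2 * w * Uw) (2 * w * Uww) Uwθ /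
          (rt w * (1 + ef 0 w * U ^ 2) ^ 6)) := by
  have hx := xf_eq hw
  have k := hF.PP_eq (α := 0) hw (by simp) (kap_sq hw.le) θ (η := U - 1) (by rwa [add_sub_cancel])
    1 Uθ Uθθ (2 * w * Uw) (2 * w * Uww) Uwθ
  have e1 : xf w * (2 * w * Uw - U) = Uw - xf w * U := by linear_combination Uw * hx
  have e2 : xf w * (2 * w * Uww - 2 * xf w * (2 * w * Uw) + (4 * xf w - xf w) * U)
      = Uww - 2 * xf w * Uw + 3 * xf w ^ 2 * U := by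
    linear_combination (Uww - 2 * xf w * Uw) * hx
  rw [add_sub_cancel, Af_zero, e1, e2, one_mul] at k
  exact k

theorem gram_Z {U : ℂ} (hl : 1 + ef 0 w * U ^ 2 ≠ 0) (Uw Uθ : ℂ) :
    gram (F.Za w θ U Uw) (F.Zb w θ U Uθ) = 16 * ef 0 w * ((1 + ef 0 w * U ^ 2) ^ 2 *
      (U ^ 2 + Uθ ^ 2) + xf w * U ^ 2 * (2 * w * Uw - U) ^ 2) / (1 + ef 0 w * U ^ 2) ^ 4 := by
  have k := hF.gram_eq (α := 0) hw (by simp) (kap_sq hw.le) θ (η := U - 1)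
    (by rwa [add_sub_cancel]) Uθ (2 * w * Uw)
  have e1 : xf w * (2 * w * Uw - U) = Uw - xf w * U := by linear_combination Uw * xf_eq hw
  rw [add_sub_cancel, Af_zero, e1] at k
  exact k

theorem ZU_triple {U : ℂ} (hl : 1 + ef 0 w * U ^ 2 ≠ 0) (Uw Uθ : ℂ) :
    F.Za w θ U Uw ⨯₃ F.Zb w θ U Uθ ⬝ᵥ F.ZU w θ U =
      F.sg θ * -(16 * rt w * ef 0 w * U / (1 + ef 0 w * U ^ 2) ^ 2) := by
  rw [Frame.ZU, dotProduct_smul, Frame.Za, Frame.Zb,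
    F.Xt_triple θ _ _ hw (by rwa [Frame.lam_kap hw.le]), hF.G_eq]
  simp only [d1, si, Frame.lam_kap hw.le, smul_eq_mul]
  field_simp
  linear_combination (-16 * U) * F.sg θ * rt w * kap_sq hw.le

end IsCyl

theorem IsCyl.PPF_Z {F : Frame} (hF : IsCyl F) {U : ℝ × ℝ → ℂ} {p : ℝ × ℝ} (hU : ContDiffAt ℝ 2 U p)
    (h0 : 0 < p.1) (hl : 1 + ef 0 p.1 * U p ^ 2 ≠ 0) :
    PPF (1, 0) (0, 1) (fun q : ℝ × ℝ => F.Z q.1 q.2 (U q)) p = F.sg p.2 * (-16 * ef 0 p.1 *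
      pE (xf p.1) (xf p.1) (ef 0 p.1) 1 (U p - 1) (pd U (0, 1) p) (pd (pd U (0, 1)) (0, 1) p)
        (2 * p.1 * pd U (1, 0) p) (2 * p.1 * pd (pd U (1, 0)) (1, 0) p)
        (pd (pd U (1, 0)) (0, 1) p) / (rt p.1 * (1 + ef 0 p.1 * U p ^ 2) ^ 6)) := by
  obtain ⟨e1, e2⟩ := F.pd_Z1 (hU.of_le (by norm_num)) h0 hl
  obtain ⟨e3, e4, e5⟩ := F.pd_Z2 hU h0 hl
  rw [PPF, e1, e2, e3, e4, e5, hF.PP_Z h0 _ hl]

lemma cx_xiCyl_Z (w θ U : ℝ) : cx (xiCyl w θ U) = cylF.Z w θ U := by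
  rw [cx_xiCyl, Frame.Z, kap]
  congr 1
  push_cast
  ring

/-! ### The surface of a jet in the Wiener algebra -/

section wa
variable (α : ℂ) (J : Fin 6 → WA) (p : ℝ × ℝ)

/-- `U = √(1 - α w) (1 + η)` -/
def U0 : ℂ := prof α p.1 * (1 + (J 0).ev p.1 p.2)
/-- `U_w` -/
def U1 : ℂ := prof α p.1 * (Af α p.1 * (J 3).ev p.1 p.2 -
  (Af α p.1 - xf p.1) * (1 + (J 0).ev p.1 p.2))
/-- `U_θ` -/
def U2 : ℂ := prof α p.1 * (J 1).ev p.1 p.2
/-- `U_ww` -/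
def U11 : ℂ := prof α p.1 * (Af α p.1 * (J 4).ev p.1 p.2 -
  2 * (Af α p.1 - xf p.1) * (Af α p.1 * (J 3).ev p.1 p.2) -
    (Af α p.1 - xf p.1) ^ 2 * (1 + (J 0).ev p.1 p.2))
/-- `U_wθ` -/
def U12 : ℂ := prof α p.1 * (Complex.sqrt (Af α p.1) * (J 5).ev p.1 p.2 -
  (Af α p.1 - xf p.1) * (J 1).ev p.1 p.2)
/-- `U_θθ` -/
def U22 : ℂ := prof α p.1 * (J 2).ev p.1 p.2

variable {α J p} {a b : ℝ}

lemma lam_U0 :
    1 + ef 0 p.1 * U0 α J p ^ 2 = 1 + ef α p.1 * (1 + (J 0).ev p.1 p.2) ^ 2 := by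
  rw [U0, mul_pow, prof_sq, ef_eq α]; ring

lemma contOn_Af {I : Set ℝ} (hI : ∀ w ∈ I, 0 < w) (hv : ∀ w ∈ I, 1 - α * w ≠ 0) :
    ContinuousOn (Af α) I := fun w hw =>
  (hasDerivAt_Af (hI w hw) (hv w hw)).continuousAt.continuousWithinAt

lemma contOn_xf {I : Set ℝ} (hI : ∀ w ∈ I, 0 < w) : ContinuousOn xf I := fun w hw =>
  (hasDerivAt_xf (hI w hw)).continuousAt.continuousWithinAt

lemma contOn_ef {I : Set ℝ} (hI : ∀ w ∈ I, 0 < w) : ContinuousOn (ef α) I := by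
  have h : ∀ w ∈ I, 8 * (w : ℂ) ≠ 0 := fun w hw =>
    mul_ne_zero (by norm_num) (ofReal_ne_zero.2 (hI w hw).ne')
  unfold ef
  fun_prop (disch := assumption)

lemma re_Af_pos {w : ℝ} (hw : 0 < w) (hv : 0 < (1 - α * w).re) : 0 < (Af α w).re := by
  have h : 0 < (2 * w * (1 - α * w) : ℂ).re := by
    rw [show (2 * w : ℂ) = ((2 * w : ℝ) : ℂ) by push_cast; rfl, re_ofReal_mul]; positivity
  rw [Af, inv_re]
  exact div_pos h (normSq_pos.2 fun e => by simp [e] at h)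

theorem jet2_U (ha : 0 < a) (hv : ∀ w ∈ Icc a b, 0 < (1 - α * w).re) (h : Jet a b (Af α) J) :
    Jet2 (Icc a b) (U0 α J) (U1 α J) (U2 α J) (U11 α J) (U12 α J) (U22 α J) := by
  have h0 : ∀ w ∈ Icc a b, 0 < w := fun w hw => ha.trans_le hw.1
  have cA := contOn_Af h0 fun w hw => slitPlane_ne_zero (Or.inl (hv w hw))
  exact jet2_prof h0 (fun w hw => Or.inl (hv w hw)) (P218EF.jet2_of_jet h cA
    (P218EF.contOn_sqrt cA fun w hw => re_Af_pos (h0 w hw) (hv w hw)))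

/-- the absolute form of the operator `EE` -/
theorem pE_U (ha : 0 < a) (hv : ∀ w ∈ Icc a b, 0 < (1 - α * w).re) (J : Fin 6 → WA)
    (hp : p.1 ∈ Icc a b) : pE (xf p.1) (xf p.1) (ef 0 p.1) 1 (U0 α J p - 1) (U2 α J p) (U22 α J p)
      (2 * p.1 * U1 α J p) (2 * p.1 * U11 α J p) (U12 α J p) =
      (1 - α * p.1) * (P218EN.EE a b α J).ev p.1 p.2 := by
  have h0 : ∀ w ∈ Icc a b, 0 < w := fun w hw => ha.trans_le hw.1
  have h1 : ∀ w ∈ Icc a b, 1 - α * w ≠ 0 := fun w hw => slitPlane_ne_zero (Or.inl (hv w hw))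
  have cA := contOn_Af h0 h1
  rw [P218EN.ev_EE cA (contOn_xf h0) (contOn_ef h0)
    (P218EF.contOn_sqrt cA fun w hw => re_Af_pos (h0 w hw) (hv w hw)) J hp,
    ← pE_prof (h0 _ hp) (h1 _ hp) (prof_sq α p.1), U11, mul_assoc (2 * _)]
  rfl

/-- the shrinker operator of the surface of a jet -/
theorem IsCyl.PP_U {F : Frame} (hF : IsCyl F) (ha : 0 < a)
    (hv : ∀ w ∈ Icc a b, 0 < (1 - α * w).re) (J : Fin 6 → WA) (hp : p.1 ∈ Icc a b)
    (hl : 1 + ef α p.1 * (1 + (J 0).ev p.1 p.2) ^ 2 ≠ 0) :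
    PP (F.Z p.1 p.2 (U0 α J p)) (F.Za p.1 p.2 (U0 α J p) (U1 α J p))
      (F.Zb p.1 p.2 (U0 α J p) (U2 α J p)) (F.Zaa p.1 p.2 (U0 α J p) (U1 α J p) (U11 α J p))
      (F.Zab p.1 p.2 (U0 α J p) (U1 α J p) (U2 α J p) (U12 α J p))
      (F.Zbb p.1 p.2 (U0 α J p) (U2 α J p) (U22 α J p)) =
      F.sg p.2 * (-16 * ef α p.1 * (P218EN.EE a b α J).ev p.1 p.2 /
        (rt p.1 * (1 + ef α p.1 * (1 + (J 0).ev p.1 p.2) ^ 2) ^ 6)) := by
  have h0 := ha.trans_le hp.1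
  rw [hF.PP_Z h0 _ (by rwa [lam_U0]), pE_U ha hv J hp, lam_U0, ef_eq α]
  ring

end wa

end Vale.Agent.P218XI
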