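import Vale.Agent.P218XI.Xi2
import Vale.Agent.P218VA.Bdry
import Vale.Agent.P218CN.Eq
import Vale.Agent.P218GA.ModelB

/-! The frames of the cylinder and of a link; the equation of the ends of the model. -/

open scoped Matrix Topology Real ContDiff RealInnerProductSpace
open Complex Filter Set

noncomputable section

namespace Vale.Agent.P218XI

open Vale.Agent.P218VA Vale.Agent.P218GA
open Vale.Agent.P218CN (EE dd gg hh lam)

/-- a matrix as a real linear map -/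
def mvL (Q : Matrix (Fin 3) (Fin 3) ℂ) : C3 →L[ℝ] C3 :=
  (LinearMap.toContinuousLinearMap Q.mulVecLin).restrictScalars ℝ

lemma mvL_apply (Q : Matrix (Fin 3) (Fin 3) ℂ) (y : C3) : mvL Q y = Q *ᵥ y := rfl

namespace Frame
variable (F : Frame)

lemma X_eq_xiC (w θ : ℝ) (t : ℂ) : F.X w θ t = xiC (F.γ θ) (F.n θ) w t := by
  rw [X_eq, xiC, u]
  ext i
  simp only [co, si, rt, Pi.smul_apply, Pi.add_apply, smul_eq_mul]
  ring

lemma G_eq (θ : ℝ) (t : ℂ) : F.G θ t = gg F.c (F.β θ) t / lam t := by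
  simp only [G, co, si, gg, lam]; ring

lemma H_eq (θ : ℝ) (t : ℂ) : F.H θ t = hh F.c (F.β θ) t / lam t := by
  simp only [H, co, si, hh, lam]; ring

/-- the rotated frame -/
def rot (Q : Matrix (Fin 3) (Fin 3) ℂ) (hQ : Qᵀ * Q = 1) : Frame where
  γ θ := Q *ᵥ F.γ θ
  n θ := Q *ᵥ F.n θ
  T θ := Q *ᵥ F.T θ
  c := F.c
  β := F.β
  γ_sm := (mvL Q).contDiff.comp F.γ_sm
  n_sm := (mvL Q).contDiff.comp F.n_sm
  T_sm := (mvL Q).contDiff.comp F.T_sm
  β_sm := F.β_sm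
  dγ θ := ((mvL Q).hasFDerivAt.comp_hasDerivAt θ (F.dγ θ)).congr_deriv (by
    rw [mvL_apply, Matrix.mulVec_smul])
  dn θ := ((mvL Q).hasFDerivAt.comp_hasDerivAt θ (F.dn θ)).congr_deriv (by
    rw [mvL_apply, Matrix.mulVec_smul])
  dT θ := ((mvL Q).hasFDerivAt.comp_hasDerivAt θ (F.dT θ)).congr_deriv (by
    rw [mvL_apply, Matrix.mulVec_sub, Matrix.mulVec_neg, Matrix.mulVec_smul, Matrix.mulVec_smul])
  γγ θ := by rw [dot_rot hQ, F.γγ]
  nn θ := by rw [dot_rot hQ, F.nn]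
  TT θ := by rw [dot_rot hQ, F.TT]
  γn θ := by rw [dot_rot hQ, F.γn]
  γT θ := by rw [dot_rot hQ, F.γT]
  nT θ := by rw [dot_rot hQ, F.nT]
  γ_per θ := by rw [F.γ_per]
  n_per θ := by rw [F.n_per]
  T_per θ := by rw [F.T_per]
  β_per := F.β_per

section rot
variable {Q : Matrix (Fin 3) (Fin 3) ℂ} (hQ : Qᵀ * Q = 1) (w θ : ℝ) (t tw tθ tww twθ tθθ : ℂ)

@[simp] lemma rot_c : (F.rot Q hQ).c = F.c := rfl
@[simp] lemma rot_β : (F.rot Q hQ).β = F.β := rfl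
@[simp] lemma rot_G : (F.rot Q hQ).G θ t = F.G θ t := rfl
@[simp] lemma rot_H : (F.rot Q hQ).H θ t = F.H θ t := rfl
@[simp] lemma rot_sg : (F.rot Q hQ).sg θ = Q.det * F.sg θ := triple_mulVec ..

lemma rot_R (y : C3) : (F.rot Q hQ).R θ t *ᵥ y = Q *ᵥ (F.R θ t *ᵥ y) := by
  simp only [R_mulVec, u, v, rot, Matrix.mulVec_add, Matrix.mulVec_sub, Matrix.mulVec_smul]

lemma rot_X : (F.rot Q hQ).X w θ t = Q *ᵥ F.X w θ t := F.rot_R ..
lemma rot_Xt : (F.rot Q hQ).Xt w θ t = Q *ᵥ F.Xt w θ t := F.rot_R ..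
lemma rot_a : (F.rot Q hQ).a w θ t tw = Q *ᵥ F.a w θ t tw := F.rot_R ..
lemma rot_b : (F.rot Q hQ).b w θ t tθ = Q *ᵥ F.b w θ t tθ := F.rot_R ..
lemma rot_aa : (F.rot Q hQ).aa w θ t tw tww = Q *ᵥ F.aa w θ t tw tww := F.rot_R ..
lemma rot_ab : (F.rot Q hQ).ab w θ t tw tθ twθ = Q *ᵥ F.ab w θ t tw tθ twθ := F.rot_R ..
lemma rot_bb : (F.rot Q hQ).bb w θ t tθ tθθ = Q *ᵥ F.bb w θ t tθ tθθ := F.rot_R ..

end rot

variable {w : ℝ} (θ : ℝ) {t : ℂ} (tw tθ tww twθ tθθ : ℂ)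

theorem PP_EE (hw : 0 < w) (h : 1 + t ^ 2 ≠ 0) :
    PP (F.X w θ t) (F.a w θ t tw) (F.b w θ t tθ) (F.aa w θ t tw tww) (F.ab w θ t tw tθ twθ)
      (F.bb w θ t tθ tθθ) = F.sg θ * (-4 * EE F.c (F.β θ) (deriv F.β θ) t tθ tθθ (2 * w * tw)
        (4 * w ^ 2 * tw) (4 * w ^ 2 * tww) (2 * w * twθ) / (rt w * lam t ^ 6)) := by
  have k := P218CN.PP_comp F.c (F.β θ) (deriv F.β θ) tw tθ tww twθ tθθ (rt_ne hw) (t := t) h
  have e : rt w ^ 4 = w ^ 2 := by rw [← rt_sq hw.le]; ring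
  rw [e, rt_sq hw.le] at k
  rw [← k, X, a, b, aa, ab, bb, PP_rot (F.R_orth θ h), F.R_det θ h, G_eq, H_eq]
  congr 2
  simp only [P218CN.kbb, P218CN.f1, P218CN.f2, d1, d2, si, lam]
  congr 3
  ring

theorem gram_dd (hw : 0 < w) (h : 1 + t ^ 2 ≠ 0) : gram (F.a w θ t tw) (F.b w θ t tθ)
    = 4 * dd F.c (F.β θ) t tθ (2 * w * tw) / lam t ^ 4 := by
  rw [F.gram_eq θ tw tθ hw h, G_eq]
  simp only [dd, d1, lam]
  field_simp
  ring

end Frame

/-- the tangent of the unit circle -/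
def tthc (θ : ℝ) : C3 := ![-(Real.sin θ : ℂ), (Real.cos θ : ℂ), 0]

/-- the frame of the cylinder -/
def cylF : Frame where
  γ _ := e3c
  n := ethc
  T := tthc
  c := 0
  β _ := 1
  γ_sm := contDiff_const
  n_sm := contDiff_pi.2 fun i => by
    fin_cases i
    · exact ofRealCLM.contDiff.comp Real.contDiff_cos
    · exact ofRealCLM.contDiff.comp Real.contDiff_sin
    · exact contDiff_const
  T_sm := contDiff_pi.2 fun i => by
    fin_cases i
    · exact (ofRealCLM.contDiff.comp Real.contDiff_sin).neg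
    · exact ofRealCLM.contDiff.comp Real.contDiff_cos
    · exact contDiff_const
  β_sm := contDiff_const
  dγ θ := by simpa using hasDerivAt_const θ e3c
  dn θ := by
    refine (hasDerivAt_vec (Real.hasDerivAt_cos θ).ofReal_comp
      (Real.hasDerivAt_sin θ).ofReal_comp (hasDerivAt_const θ 0)).congr_deriv ?_
    simp [tthc]
  dT θ := by
    refine (hasDerivAt_vec (Real.hasDerivAt_sin θ).ofReal_comp.neg
      (Real.hasDerivAt_cos θ).ofReal_comp (hasDerivAt_const θ 0)).congr_deriv ?_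
    simp [ethc]
  γγ θ := by simp [e3c]
  nn θ := by rw [dot3, ← cs_sq θ]; simp [ethc, sq]
  TT θ := by rw [dot3, ← cs_sq θ]; simp [tthc, sq, add_comm]
  γn θ := by simp [e3c, ethc]
  γT θ := by simp [e3c, tthc]
  nT θ := by rw [dot3]; simp [ethc, tthc, mul_comm]
  γ_per _ := rfl
  n_per θ := by simp [ethc]
  T_per θ := by simp [tthc]
  β_per _ := rfl

@[simp] lemma cylF_c : cylF.c = 0 := rfl
@[simp] lemma cylF_β (θ : ℝ) : cylF.β θ = 1 := rfl
@[simp] lemma cylF_dβ (θ : ℝ) : deriv cylF.β θ = 0 := deriv_const θ 1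
lemma cylF_γ (θ : ℝ) : cylF.γ θ = e3c := rfl
lemma cylF_n (θ : ℝ) : cylF.n θ = ethc θ := rfl
lemma cylF_T (θ : ℝ) : cylF.T θ = tthc θ := rfl
@[simp] lemma cylF_G (θ : ℝ) (t : ℂ) : cylF.G θ t = si t := by simp [Frame.G]
@[simp] lemma cylF_H (θ : ℝ) (t : ℂ) : cylF.H θ t = co t := by simp [Frame.H]

@[simp] lemma cylF_sg (θ : ℝ) : cylF.sg θ = 1 := by
  rw [Frame.sg, dot3, cross0, cross1, cross2, ← cs_sq θ]
  simp [cylF_γ, cylF_n, cylF_T, e3c, ethc, tthc, sq]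

lemma cylF_X (w θ : ℝ) (t : ℂ) : cylF.X w θ t = xiC e3c (ethc θ) w t := cylF.X_eq_xiC w θ t

lemma cx_xiCyl (w θ U : ℝ) : cx (xiCyl w θ U) = cylF.X w θ ((U / √(8 * w) : ℝ) : ℂ) := by
  rw [xiCyl, cx_xi, cx_e3, cx_eth, cylF_X]

lemma on_expand {u v e : C3} (h : P218CN.ON u v e) (y : C3) :
    y = (y ⬝ᵥ u) • u + (y ⬝ᵥ v) • v + (y ⬝ᵥ e) • e := by
  have h1 := mul_eq_one_comm.1 h.orth
  rw [← P218CN.col3_mulVec]
  conv_lhs => rw [← Matrix.one_mulVec y, ← h1, ← Matrix.mulVec_mulVec]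
  congr 1
  ext i
  fin_cases i <;> simp [Matrix.mulVec, P218CN.col3, dot3, mul_comm]

namespace Link
variable (L : P218GA.Link)

/-- the unit tangent of a link -/
def tan (θ : ℝ) : E3 := L.c⁻¹ • deriv L.γ θ

/-- the rotation of the normal of a link -/
def bet (θ : ℝ) : ℝ := ⟪deriv L.n θ, tan L θ⟫

lemma tan_sm : ContDiff ℝ ∞ (tan L) :=
  ((contDiff_infty_iff_deriv.1 L.γ_smooth).2).const_smul _

lemma bet_sm : ContDiff ℝ ∞ (bet L) :=
  ((contDiff_infty_iff_deriv.1 L.n_smooth).2).inner ℝ (tan_sm L)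

lemma dγ (θ : ℝ) : HasDerivAt L.γ (L.c • tan L θ) θ := by
  rw [tan, smul_smul, mul_inv_cancel₀ L.c_pos.ne', one_smul]
  exact (L.γ_smooth.differentiable (by simp) θ).hasDerivAt

lemma norm_tan (θ : ℝ) : ‖tan L θ‖ = 1 := by
  rw [tan, norm_smul, L.speed, norm_inv, Real.norm_of_nonneg L.c_pos.le,
    inv_mul_cancel₀ L.c_pos.ne']

lemma deriv_per {f : ℝ → E3} (h : Function.Periodic f (2 * π)) (θ : ℝ) :
    deriv f (θ + 2 * π) = deriv f θ := by
  rw [← deriv_comp_add_const, funext h]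

lemma dconst {f g : ℝ → C3} {f' g' : C3} {θ : ℝ} {c : ℂ} (hf : HasDerivAt f f' θ)
    (hg : HasDerivAt g g' θ) (h : ∀ s, f s ⬝ᵥ g s = c) : f' ⬝ᵥ g θ + f θ ⬝ᵥ g' = 0 := by
  have := hasDerivAt_dot hf hg
  simp only [h] at this
  exact this.unique (hasDerivAt_const θ c)

lemma on (θ : ℝ) : P218CN.ON (cx (L.γ θ)) (cx (L.n θ)) (cx (tan L θ)) := by
  have h1 : ∀ s, cx (L.γ s) ⬝ᵥ cx (L.γ s) = 1 := fun s => by
    rw [cx_dot, real_inner_self_eq_norm_sq, L.γ_unit]; simp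
  refine ⟨h1 θ, ?_, ?_, ?_, ?_, ?_⟩
  · rw [cx_dot, real_inner_self_eq_norm_sq, L.n_unit]; simp
  · rw [cx_dot, real_inner_self_eq_norm_sq, norm_tan]; simp
  · rw [cx_dot, real_inner_comm, L.orth]; simp
  · have h2 := cx.hasFDerivAt.comp_hasDerivAt θ (dγ L θ)
    have h3 := dconst h2 h2 h1
    simp only [Function.comp, map_smul, smul_dotProduct, dotProduct_smul] at h3
    rw [dotProduct_comm, ← two_smul ℝ, smul_eq_zero, smul_eq_zero] at h3
    simpa [L.c_pos.ne'] using h3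
  · rw [cx_dot, tan, real_inner_smul_right, L.orth']; simp

lemma dn (θ : ℝ) : HasDerivAt (fun s => cx (L.n s)) ((bet L θ : ℂ) • cx (tan L θ)) θ := by
  have h1 := cx.hasFDerivAt.comp_hasDerivAt θ (L.n_smooth.differentiable (by simp) θ).hasDerivAt
  have h2 := cx.hasFDerivAt.comp_hasDerivAt θ (dγ L θ)
  have h3 := dconst h1 h1 fun s => (on L s).vv
  have h4 := dconst h2 h1 fun s => (on L s).uv
  simp only [Function.comp, map_smul, smul_dotProduct] at h3 h4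
  rw [dotProduct_comm (cx (tan L θ)), (on L θ).ve, smul_zero, zero_add, dotProduct_comm] at h4
  rw [dotProduct_comm (cx (L.n θ)), ← two_mul, mul_eq_zero] at h3
  refine h1.congr_deriv ((on_expand (on L θ) _).trans ?_)
  rw [h4, h3.resolve_left two_ne_zero, cx_dot]
  simp [bet]

lemma dT (θ : ℝ) : HasDerivAt (fun s => cx (tan L s))
    (-((L.c : ℂ) • cx (L.γ θ)) - (bet L θ : ℂ) • cx (L.n θ)) θ := by
  have h1 := cx.hasFDerivAt.comp_hasDerivAt θ ((tan_sm L).differentiable (by simp) θ).hasDerivAt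
  have h2 := cx.hasFDerivAt.comp_hasDerivAt θ (dγ L θ)
  have h3 := dconst h1 h1 fun s => (on L s).ee
  have h4 := dconst h2 h1 fun s => (on L s).ue
  have h5 := dconst (dn L θ) h1 fun s => (on L s).ve
  simp only [Function.comp, map_smul, smul_dotProduct, (on L θ).ee] at h3 h4 h5
  rw [dotProduct_comm (cx (tan L θ)), ← two_mul, mul_eq_zero] at h3
  rw [dotProduct_comm, add_comm, ← eq_neg_iff_add_eq_zero] at h4 h5
  refine h1.congr_deriv ((on_expand (on L θ) _).trans ?_)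
  rw [h4, h5, h3.resolve_left two_ne_zero]
  simp [sub_eq_add_neg]

end Link

/-- the frame of a link -/
def coneF (L : P218GA.Link) : Frame where
  γ θ := cx (L.γ θ)
  n θ := cx (L.n θ)
  T θ := cx (Link.tan L θ)
  c := L.c
  β θ := Link.bet L θ
  γ_sm := cx.contDiff.comp L.γ_smooth
  n_sm := cx.contDiff.comp L.n_smooth
  T_sm := cx.contDiff.comp (Link.tan_sm L)
  β_sm := ofRealCLM.contDiff.comp (Link.bet_sm L)
  dγ θ := (cx.hasFDerivAt.comp_hasDerivAt θ (Link.dγ L θ)).congr_deriv (by simp)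
  dn := Link.dn L
  dT := Link.dT L
  γγ θ := (Link.on L θ).uu
  nn θ := (Link.on L θ).vv
  TT θ := (Link.on L θ).ee
  γn θ := (Link.on L θ).uv
  γT θ := (Link.on L θ).ue
  nT θ := (Link.on L θ).ve
  γ_per θ := by rw [L.γ_periodic]
  n_per θ := by rw [L.n_periodic]
  T_per θ := by rw [Link.tan, Link.deriv_per L.γ_periodic, Link.tan]
  β_per θ := by
    rw [Link.bet, Link.tan, Link.deriv_per L.γ_periodic, Link.deriv_per L.n_periodic, Link.bet,
      Link.tan]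

lemma coneF_c (L : P218GA.Link) : (coneF L).c = L.c := rfl
lemma coneF_β (L : P218GA.Link) (θ : ℝ) : (coneF L).β θ = Link.bet L θ := rfl

lemma coneF_dβ (L : P218GA.Link) (θ : ℝ) :
    deriv (coneF L).β θ = ((deriv (Link.bet L) θ : ℝ) : ℂ) :=
  ((Link.bet_sm L).differentiable (by simp) θ).hasDerivAt.ofReal_comp.deriv

lemma cx_xiCone (L : P218GA.Link) (w θ t : ℝ) : cx (xiCone L w θ t) = (coneF L).X w θ t := by
  rw [xiCone, cx_xi, Frame.X_eq_xiC]; rfl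

lemma one_add_sq_ne (t : ℝ) : 1 + (t : ℂ) ^ 2 ≠ 0 := by
  have : (0 : ℝ) < 1 + t ^ 2 := by positivity
  exact_mod_cast this.ne'

section model
variable {S : Set E3} {w : E3 → ℝ} {δ C : ℝ} {ι κ M : Type} [TopologicalSpace M]
  [ChartedSpace E2 M] (m : Model S w δ C ι κ M)

lemma contDiffAt_end (j : ι ⊕ κ) {p : ℝ × ℝ} (hp : m.w0 < p.1) :
    ContDiffAt ℝ ∞ (fun q => m.F ((m.φ j).symm (pol q))) p :=
  (m.smooth _ (m.mem j) _ (m.pol_mem j hp) (m.pol_mem_reg j hp)).1.comp p contDiff_pol.contDiffAt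

lemma PPF_end (j : ι ⊕ κ) {p : ℝ × ℝ} (hp : m.w0 < p.1) :
    PPF (1, 0) (0, 1) (fun q => cx (m.F ((m.φ j).symm (pol q)))) p = 0 :=
  PPF_zero m.shr ((contDiffAt_end m j hp).of_le two_le_inf)
    ((continuous_fst.continuousAt.eventually (lt_mem_nhds hp)).mono fun _ hq =>
      m.F_mem (m.pol_mem_reg j hq)) _ _

/-- the equation of a conical end of the model -/
theorem PPF_cone (j : κ) {p : ℝ × ℝ} (hp : m.w0 < p.1) :
    PPF (1, 0) (0, 1) (fun q : ℝ × ℝ => (coneF (m.L j)).X q.1 q.2 (m.t j q)) p = 0 := by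
  rw [← PPF_end m (.inr j) hp]
  refine PPF_congr ?_
  filter_upwards [continuous_fst.continuousAt.eventually (lt_mem_nhds hp)] with q hq
  rw [m.cone j q hq, cx_xiCone]

/-- the equation of a cylindrical end of the model -/
theorem PPF_cyl (i : ι) {p : ℝ × ℝ} (hp : m.w0 < p.1) :
    PPF (1, 0) (0, 1) (fun q : ℝ × ℝ => (cylF.rot (mat (m.Q i)) (mat_orth _)).X q.1 q.2
      ((m.U i q / √(8 * q.1) : ℝ) : ℂ)) p = 0 := by
  rw [← PPF_end m (.inl i) hp]
  refine PPF_congr ?_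
  filter_upwards [continuous_fst.continuousAt.eventually (lt_mem_nhds hp)] with q hq
  rw [m.cyl i q hq, cx_isometry, cx_xiCyl, Frame.rot_X]

end model

end Vale.Agent.P218XI
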