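import Vale.Agent.P218VA.Strip

/-! Jets of the spherical coordinates `Ξ` over a moving orthonormal frame. -/

open scoped Matrix Topology Real ContDiff
open Complex Filter Set

noncomputable section

namespace Vale.Agent.P218XI

open Vale.Agent.P218VA

/-- a moving orthonormal frame along a closed curve `γ` of the sphere (possibly a point) -/
structure Frame where
  /-- the curve -/
  γ : ℝ → C3
  /-- the normal in the sphere -/
  n : ℝ → C3
  /-- the tangent -/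
  T : ℝ → C3
  /-- the speed -/
  c : ℂ
  /-- the rotation of the normal -/
  β : ℝ → ℂ
  γ_sm : ContDiff ℝ ∞ γ
  n_sm : ContDiff ℝ ∞ n
  T_sm : ContDiff ℝ ∞ T
  β_sm : ContDiff ℝ ∞ β
  dγ : ∀ θ, HasDerivAt γ (c • T θ) θ
  dn : ∀ θ, HasDerivAt n (β θ • T θ) θ
  dT : ∀ θ, HasDerivAt T (-(c • γ θ) - β θ • n θ) θ
  γγ : ∀ θ, γ θ ⬝ᵥ γ θ = 1
  nn : ∀ θ, n θ ⬝ᵥ n θ = 1
  TT : ∀ θ, T θ ⬝ᵥ T θ = 1
  γn : ∀ θ, γ θ ⬝ᵥ n θ = 0
  γT : ∀ θ, γ θ ⬝ᵥ T θ = 0
  nT : ∀ θ, n θ ⬝ᵥ T θ = 0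
  γ_per : ∀ θ, γ (θ + 2 * π) = γ θ
  n_per : ∀ θ, n (θ + 2 * π) = n θ
  T_per : ∀ θ, T (θ + 2 * π) = T θ
  β_per : ∀ θ, β (θ + 2 * π) = β θ

/-- cosine of the angle `φ = 2 arctan t` -/
def co (t : ℂ) : ℂ := (1 - t ^ 2) / (1 + t ^ 2)

/-- sine of the angle `φ = 2 arctan t` -/
def si (t : ℂ) : ℂ := 2 * t / (1 + t ^ 2)

/-- first derivatives of the angle -/
def d1 (t t1 : ℂ) : ℂ := 2 * t1 / (1 + t ^ 2)

/-- second derivatives of the angle -/
def d2 (t t1 t2 t12 : ℂ) : ℂ := 2 * t12 / (1 + t ^ 2) - 4 * t * t1 * t2 / (1 + t ^ 2) ^ 2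

/-- the square root of the height -/
def rt (w : ℝ) : ℂ := (√w : ℝ)

lemma co_sq_add {t : ℂ} (h : 1 + t ^ 2 ≠ 0) : co t ^ 2 + si t ^ 2 = 1 := by
  unfold co si; field_simp; ring

lemma rt_sq {w : ℝ} (hw : 0 ≤ w) : rt w ^ 2 = w := by
  rw [rt, ← ofReal_pow, Real.sq_sqrt hw]

lemma rt_ne {w : ℝ} (hw : 0 < w) : rt w ≠ 0 := ofReal_ne_zero.2 (Real.sqrt_pos.2 hw).ne'

lemma hasDerivAt_rt {w : ℝ} (hw : 0 < w) : HasDerivAt rt (1 / (2 * rt w)) w := by
  refine ((Real.hasDerivAt_sqrt hw.ne').ofReal_comp).congr_deriv ?_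
  simp [rt]

lemma contDiffAt_rt {w : ℝ} (hw : 0 < w) : ContDiffAt ℝ ∞ rt w :=
  ofRealCLM.contDiff.contDiffAt.comp w (Real.contDiffAt_sqrt hw.ne')

lemma continuous_rt : Continuous rt := continuous_ofReal.comp Real.continuous_sqrt

section curve
variable {t t1 : ℝ → ℂ} {t' t1' : ℂ} {s : ℝ}

lemma hasDerivAt_lam (ht : HasDerivAt t t' s) :
    HasDerivAt (fun s => 1 + t s ^ 2) (2 * t s * t') s := by
  simpa using (ht.pow 2).const_add 1

lemma hasDerivAt_co (ht : HasDerivAt t t' s) (h : 1 + t s ^ 2 ≠ 0) :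
    HasDerivAt (fun s => co (t s)) (-(si (t s) * d1 (t s) t')) s := by
  refine (((ht.pow 2).const_sub 1).div (hasDerivAt_lam ht) h).congr_deriv ?_
  simp only [si, d1, Pi.pow_apply]
  field_simp
  push_cast
  ring

lemma hasDerivAt_si (ht : HasDerivAt t t' s) (h : 1 + t s ^ 2 ≠ 0) :
    HasDerivAt (fun s => si (t s)) (co (t s) * d1 (t s) t') s := by
  refine ((ht.const_mul 2).div (hasDerivAt_lam ht) h).congr_deriv ?_
  simp only [co, d1]
  field_simp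
  ring

lemma hasDerivAt_d1 (ht : HasDerivAt t t' s) (ht1 : HasDerivAt t1 t1' s) (h : 1 + t s ^ 2 ≠ 0) :
    HasDerivAt (fun s => d1 (t s) (t1 s)) (d2 (t s) (t1 s) t' t1') s := by
  refine ((ht1.const_mul 2).div (hasDerivAt_lam ht) h).congr_deriv ?_
  simp only [d2]
  field_simp
  ring

end curve

lemma d2_comm (t t1 t2 t12 : ℂ) : d2 t t1 t2 t12 = d2 t t2 t1 t12 := by unfold d2; ring

lemma hasDerivAt_vec {x y z : ℝ → ℂ} {x' y' z' : ℂ} {s : ℝ} (hx : HasDerivAt x x' s)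
    (hy : HasDerivAt y y' s) (hz : HasDerivAt z z' s) :
    HasDerivAt (fun s => (![x s, y s, z s] : C3)) ![x', y', z'] s :=
  hasDerivAt_pi.2 fun i => by fin_cases i <;> assumption

namespace Frame
variable (F : Frame)

/-- the radial direction -/
def u (θ : ℝ) (t : ℂ) : C3 := co t • F.γ θ + si t • F.n θ

/-- the direction of increasing angle -/
def v (θ : ℝ) (t : ℂ) : C3 := co t • F.n θ - si t • F.γ θ

/-- the length element of the parallel curve -/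
def G (θ : ℝ) (t : ℂ) : ℂ := F.c * co t + F.β θ * si t

/-- its derivative in the angle -/
def H (θ : ℝ) (t : ℂ) : ℂ := F.β θ * co t - F.c * si t

/-- the orientation -/
def sg (θ : ℝ) : ℂ := F.γ θ ⬝ᵥ F.n θ ⨯₃ F.T θ

/-- the adapted frame -/
def R (θ : ℝ) (t : ℂ) : Matrix (Fin 3) (Fin 3) ℂ :=
  Matrix.of fun i j => ![F.u θ t, F.v θ t, F.T θ] j i

lemma R_mulVec (θ : ℝ) (t : ℂ) (y : C3) :
    F.R θ t *ᵥ y = y 0 • F.u θ t + y 1 • F.v θ t + y 2 • F.T θ := by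
  ext i
  simp only [Matrix.mulVec, dot3]
  simp [R, mul_comm]

lemma R_orth (θ : ℝ) {t : ℂ} (h : 1 + t ^ 2 ≠ 0) : (F.R θ t)ᵀ * F.R θ t = 1 := by
  have e := co_sq_add h
  have h1 := F.γγ θ
  have h2 := F.nn θ
  have h3 := F.TT θ
  have h4 := F.γn θ
  have h5 := F.γT θ
  have h6 := F.nT θ
  simp only [dot3] at h1 h2 h3 h4 h5 h6
  ext i j
  fin_cases i <;> fin_cases j <;> simp [R, Matrix.mul_apply, Fin.sum_univ_three, u, v]
  · linear_combination e + co t ^ 2 * h1 + si t ^ 2 * h2 + 2 * co t * si t * h4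
  · linear_combination -co t * si t * h1 + co t * si t * h2 + (co t ^ 2 - si t ^ 2) * h4
  · linear_combination co t * h5 + si t * h6
  · linear_combination -co t * si t * h1 + co t * si t * h2 + (co t ^ 2 - si t ^ 2) * h4
  · linear_combination e + si t ^ 2 * h1 + co t ^ 2 * h2 - 2 * co t * si t * h4
  · linear_combination co t * h6 - si t * h5
  · linear_combination co t * h5 + si t * h6
  · linear_combination co t * h6 - si t * h5
  · linear_combination h3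

lemma R_det (θ : ℝ) {t : ℂ} (h : 1 + t ^ 2 ≠ 0) : (F.R θ t).det = F.sg θ := by
  have e := co_sq_add h
  simp only [sg, dot3, cross0, cross1, cross2, Matrix.det_fin_three]
  simp [R, u, v]
  linear_combination (F.γ θ 0 * (F.n θ 1 * F.T θ 2 - F.n θ 2 * F.T θ 1) +
    F.γ θ 1 * (F.n θ 2 * F.T θ 0 - F.n θ 0 * F.T θ 2) +
    F.γ θ 2 * (F.n θ 0 * F.T θ 1 - F.n θ 1 * F.T θ 0)) * e

lemma sg_sq (θ : ℝ) : F.sg θ ^ 2 = 1 := by
  have h : (1 : ℂ) + 0 ^ 2 ≠ 0 := by norm_num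
  rw [← F.R_det θ h, det_sq_rot (F.R_orth θ h)]

lemma sg_ne (θ : ℝ) : F.sg θ ≠ 0 := fun h => by simpa [h] using F.sg_sq θ

lemma sg_const (θ θ' : ℝ) : F.sg θ = F.sg θ' := by
  refine is_const_of_deriv_eq_zero (𝕜 := ℝ) (fun s => ?_) (fun s => ?_) θ θ'
  · exact (hasDerivAt_dot (F.dγ s) (hasDerivAt_cross (F.dn s) (F.dT s))).differentiableAt
  · refine (hasDerivAt_dot (F.dγ s) (hasDerivAt_cross (F.dn s) (F.dT s))).deriv.trans ?_
    simp only [dot3, cross0, cross1, cross2, Pi.add_apply, Pi.sub_apply, Pi.neg_apply,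
      Pi.smul_apply, smul_eq_mul]
    ring

lemma R_per (θ : ℝ) (t : ℂ) : F.R (θ + 2 * π) t = F.R θ t := by
  simp only [R, u, v, F.γ_per, F.n_per, F.T_per]

lemma G_per (θ : ℝ) (t : ℂ) : F.G (θ + 2 * π) t = F.G θ t := by simp only [G, F.β_per]

lemma dβ (θ : ℝ) : HasDerivAt F.β (deriv F.β θ) θ :=
  (F.β_sm.differentiable (by simp) θ).hasDerivAt

lemma continuous_dβ : Continuous (deriv F.β) := F.β_sm.continuous_deriv (by simp)

/-- the position -/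
def X (w θ : ℝ) (t : ℂ) : C3 := F.R θ t *ᵥ ![2 * rt w, 0, 0]

/-- the derivative of the position in `t` -/
def Xt (w θ : ℝ) (t : ℂ) : C3 := F.R θ t *ᵥ ![0, 2 * rt w * d1 t 1, 0]

/-- the derivative in `w` -/
def a (w θ : ℝ) (t tw : ℂ) : C3 := F.R θ t *ᵥ ![1 / rt w, 2 * rt w * d1 t tw, 0]

/-- the derivative in `θ` -/
def b (w θ : ℝ) (t tθ : ℂ) : C3 := F.R θ t *ᵥ ![0, 2 * rt w * d1 t tθ, 2 * rt w * F.G θ t]

/-- the second derivative in `w` -/
def aa (w θ : ℝ) (t tw tww : ℂ) : C3 :=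
  F.R θ t *ᵥ ![-1 / (2 * rt w ^ 3) - 2 * rt w * d1 t tw ^ 2,
    2 * d1 t tw / rt w + 2 * rt w * d2 t tw tw tww, 0]

/-- the mixed derivative -/
def ab (w θ : ℝ) (t tw tθ twθ : ℂ) : C3 :=
  F.R θ t *ᵥ ![-(2 * rt w * d1 t tw * d1 t tθ), d1 t tθ / rt w + 2 * rt w * d2 t tw tθ twθ,
    F.G θ t / rt w + 2 * rt w * d1 t tw * F.H θ t]

/-- the second derivative in `θ` -/
def bb (w θ : ℝ) (t tθ tθθ : ℂ) : C3 :=
  F.R θ t *ᵥ ![-(2 * rt w * (d1 t tθ ^ 2 + F.G θ t ^ 2)),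
    2 * rt w * (d2 t tθ tθ tθθ - F.G θ t * F.H θ t),
    2 * rt w * (2 * d1 t tθ * F.H θ t + deriv F.β θ * si t)]

lemma X_eq (w θ : ℝ) (t : ℂ) : F.X w θ t = (2 * rt w) • F.u θ t := by simp [X, R_mulVec]

section curve
variable {t t1 : ℝ → ℂ} {t' t1' : ℂ} {s θ w : ℝ} {y : ℝ → C3} {y' : C3}

lemma hasDerivAt_Rw (ht : HasDerivAt t t' s) (h : 1 + t s ^ 2 ≠ 0) (hy : HasDerivAt y y' s) :
    HasDerivAt (fun s => F.R θ (t s) *ᵥ y s) (F.R θ (t s) *ᵥ
      (y' + ![-(d1 (t s) t' * y s 1), d1 (t s) t' * y s 0, 0])) s := by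
  have k := hasDerivAt_pi.1 hy
  have hc := hasDerivAt_co ht h
  have hs := hasDerivAt_si ht h
  simp only [R_mulVec, u, v]
  refine ((((k 0).smul ((hc.smul_const _).add (hs.smul_const _))).add
    ((k 1).smul ((hc.smul_const _).sub (hs.smul_const _)))).add
    ((k 2).smul_const _)).congr_deriv ?_
  ext i
  simp
  ring

lemma hasDerivAt_Rθ (ht : HasDerivAt t t' s) (h : 1 + t s ^ 2 ≠ 0) (hy : HasDerivAt y y' s) :
    HasDerivAt (fun s => F.R s (t s) *ᵥ y s) (F.R s (t s) *ᵥ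
      (y' + ![-(d1 (t s) t' * y s 1) - F.G s (t s) * y s 2,
        d1 (t s) t' * y s 0 - F.H s (t s) * y s 2,
        F.G s (t s) * y s 0 + F.H s (t s) * y s 1])) s := by
  have k := hasDerivAt_pi.1 hy
  have hc := hasDerivAt_co ht h
  have hs := hasDerivAt_si ht h
  have e := co_sq_add h
  simp only [R_mulVec, u, v]
  refine ((((k 0).smul ((hc.smul (F.dγ s)).add (hs.smul (F.dn s)))).add
    ((k 1).smul ((hc.smul (F.dn s)).sub (hs.smul (F.dγ s))))).add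
    ((k 2).smul (F.dT s))).congr_deriv ?_
  ext i
  simp [G, H]
  linear_combination y s 2 * (F.c * F.γ s i + F.β s * F.n s i) * e

lemma hasDerivAt_Gw (ht : HasDerivAt t t' s) (h : 1 + t s ^ 2 ≠ 0) :
    HasDerivAt (fun s => F.G θ (t s)) (F.H θ (t s) * d1 (t s) t') s := by
  refine (((hasDerivAt_co ht h).const_mul _).add ((hasDerivAt_si ht h).const_mul _)).congr_deriv ?_
  simp only [H]; ring

lemma hasDerivAt_Gθ (ht : HasDerivAt t t' s) (h : 1 + t s ^ 2 ≠ 0) :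
    HasDerivAt (fun s => F.G s (t s)) (F.H s (t s) * d1 (t s) t' + deriv F.β s * si (t s)) s := by
  refine (((hasDerivAt_co ht h).const_mul _).add
    ((F.dβ s).mul (hasDerivAt_si ht h))).congr_deriv ?_
  simp only [H]; ring

lemma hasDerivAt_Xt (ht : HasDerivAt t t' s) (h : 1 + t s ^ 2 ≠ 0) :
    HasDerivAt (fun s => F.X w θ (t s)) (t' • F.Xt w θ (t s)) s := by
  refine (F.hasDerivAt_Rw ht h (hasDerivAt_const _ _)).congr_deriv ?_
  rw [Xt, ← Matrix.mulVec_smul]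
  congr 1
  ext i
  fin_cases i <;> simp [d1]
  ring

lemma hasDerivAt_Xw (hs : 0 < s) (ht : HasDerivAt t t' s) (h : 1 + t s ^ 2 ≠ 0) :
    HasDerivAt (fun s => F.X s θ (t s)) (F.a s θ (t s) t') s := by
  have hr := rt_ne hs
  refine (F.hasDerivAt_Rw ht h (hasDerivAt_vec ((hasDerivAt_rt hs).const_mul 2)
    (hasDerivAt_const _ _) (hasDerivAt_const _ _))).congr_deriv ?_
  rw [a]
  congr 1
  ext i
  fin_cases i <;> simp
  · field_simp
  · ring

lemma hasDerivAt_Xθ (ht : HasDerivAt t t' s) (h : 1 + t s ^ 2 ≠ 0) :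
    HasDerivAt (fun s => F.X w s (t s)) (F.b w s (t s) t') s := by
  refine (F.hasDerivAt_Rθ ht h (hasDerivAt_const _ _)).congr_deriv ?_
  rw [b]
  congr 1
  ext i
  fin_cases i <;> simp <;> ring

lemma hasDerivAt_aw (hs : 0 < s) (ht : HasDerivAt t t' s) (h : 1 + t s ^ 2 ≠ 0)
    (ht1 : HasDerivAt t1 t1' s) (e : t1 s = t') :
    HasDerivAt (fun s => F.a s θ (t s) (t1 s)) (F.aa s θ (t s) t' t1') s := by
  have hr := rt_ne hs
  refine (F.hasDerivAt_Rw ht h (hasDerivAt_vec ((hasDerivAt_const _ _).div (hasDerivAt_rt hs) hr)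
    (((hasDerivAt_rt hs).const_mul 2).mul (hasDerivAt_d1 ht ht1 h))
    (hasDerivAt_const _ _))).congr_deriv ?_
  subst e
  rw [aa]
  congr 1
  ext i
  fin_cases i <;> simp <;> field_simp <;> ring

lemma hasDerivAt_aθ (ht : HasDerivAt t t' s) (h : 1 + t s ^ 2 ≠ 0) (ht1 : HasDerivAt t1 t1' s) :
    HasDerivAt (fun s => F.a w s (t s) (t1 s)) (F.ab w s (t s) (t1 s) t' t1') s := by
  refine (F.hasDerivAt_Rθ ht h (hasDerivAt_vec (hasDerivAt_const _ _)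
    ((hasDerivAt_d1 ht ht1 h).const_mul _) (hasDerivAt_const _ _))).congr_deriv ?_
  rw [ab]
  congr 1
  ext i
  fin_cases i <;> simp <;> ring

lemma hasDerivAt_bw (hs : 0 < s) (ht : HasDerivAt t t' s) (h : 1 + t s ^ 2 ≠ 0)
    (ht1 : HasDerivAt t1 t1' s) :
    HasDerivAt (fun s => F.b s θ (t s) (t1 s)) (F.ab s θ (t s) t' (t1 s) t1') s := by
  have hr := rt_ne hs
  refine (F.hasDerivAt_Rw ht h (hasDerivAt_vec (hasDerivAt_const _ _)
    (((hasDerivAt_rt hs).const_mul 2).mul (hasDerivAt_d1 ht ht1 h))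
    (((hasDerivAt_rt hs).const_mul 2).mul (F.hasDerivAt_Gw ht h)))).congr_deriv ?_
  rw [ab, d2_comm]
  congr 1
  ext i
  fin_cases i <;> simp <;> field_simp

lemma hasDerivAt_bθ (ht : HasDerivAt t t' s) (h : 1 + t s ^ 2 ≠ 0)
    (ht1 : HasDerivAt t1 t1' s) (e : t1 s = t') :
    HasDerivAt (fun s => F.b w s (t s) (t1 s)) (F.bb w s (t s) t' t1') s := by
  refine (F.hasDerivAt_Rθ ht h (hasDerivAt_vec (hasDerivAt_const _ _)
    ((hasDerivAt_d1 ht ht1 h).const_mul _) ((F.hasDerivAt_Gθ ht h).const_mul _))).congr_deriv ?_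
  subst e
  rw [bb]
  congr 1
  ext i
  fin_cases i <;> simp <;> ring

end curve

end Frame

end Vale.Agent.P218XI
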