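import Vale.Agent.P218XI.Col3
import Vale.Agent.P281.MF.Hol

/-! The limit family on a cylindrical end and its linearisation, as functions. -/

noncomputable section

namespace Vale.Agent.P218XI
open Set Complex Metric Filter Topology Vale.Agent.P218EN Vale.Agent.P218EN.WA Vale.Agent.P218CH
open Vale.Agent.P218CO (T3 J2 pj EndOp EndSol LinEnd)
open Vale.Agent.P218OP (cylOp)
open Vale.Agent.P218GA (E3 Model)

/-- a coefficient at a level -/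
def coE (k : ℤ) (a : ℝ) : (Fin 6 → WA) →L[ℂ] ℂ :=
  (BoundedContinuousFunction.evalCLM ℂ a : CB →L[ℂ] ℂ).comp ((coL k).comp (.proj 0))

lemma coE_apply (k : ℤ) (a : ℝ) (K : Fin 6 → WA) : coE k a K = (K 0).co k a := rfl

/-- the coefficients of `1, cos θ, sin θ` at the level `a` -/
def md (a : ℝ) : (Fin 6 → WA) →L[ℂ] (Fin 3 → ℂ) :=
  .pi ![coE 0 a, coE 1 a + coE (-1) a, I • (coE 1 a - coE (-1) a)]

lemma md_0 (a : ℝ) (K : Fin 6 → WA) : md a K 0 = (K 0).co 0 a := rfl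
lemma md_1 (a : ℝ) (K : Fin 6 → WA) : md a K 1 = (K 0).co 1 a + (K 0).co (-1) a := rfl
lemma md_2 (a : ℝ) (K : Fin 6 → WA) : md a K 2 = I * ((K 0).co 1 a - (K 0).co (-1) a) := rfl

lemma norm_md_le (a : ℝ) (K : Fin 6 → WA) : ‖md a K‖ ≤ 2 * ‖K‖ := by
  have h : ∀ k, ‖(K 0).co k a‖ ≤ ‖K‖ := fun k =>
    (norm_co_apply_le _ _ _).trans (norm_le_pi_norm K 0)
  refine (pi_norm_le_iff_of_nonneg (by positivity)).2 fun j => ?_
  fin_cases j
  · exact (h 0).trans (by linarith [norm_nonneg K])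
  · exact (norm_add_le_of_le (h 1) (h (-1))).trans_eq (by ring)
  · exact (norm_mul_le_of_le norm_I.le (norm_sub_le_of_le (h 1) (h (-1)))).trans_eq (by ring)

lemma md_congr {a : ℝ} {K K' : Fin 6 → WA} (h : WEq {a} (K 0) (K' 0)) : md a K = md a K' := by
  funext j
  fin_cases j <;> simp [md_0, md_1, md_2, h _ a rfl]

lemma md_clp {a L : ℝ} (h : a ≤ L) (K : Fin 6 → WA) : md a (clp a L K) = md a K :=
  md_congr fun k w hw => by rw [hw, clp, co_comp, cl_of_mem (left_mem_Icc.2 h)]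

lemma im_md {a : ℝ} {K : Fin 6 → WA} (h : cj (K 0) = K 0) (j : Fin 3) : (md a K j).im = 0 := by
  have e : ∀ k, starRingEnd ℂ ((K 0).co (-k) a) = (K 0).co k a := fun k => by rw [← co_cj, h]
  have e1 := e (-1)
  have e0 := e 0
  rw [neg_neg] at e1
  rw [neg_zero] at e0
  rw [← conj_eq_iff_im]
  fin_cases j
  · exact e0
  · simp only [Fin.mk_one, md_1, map_add, e1, e 1, add_comm]
  · simp only [Fin.reduceFinMk, md_2, map_mul, map_sub, e1, e 1, conj_I]; ring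

/-- the boundary values of a function without higher modes -/
theorem e0_bdry {a : ℝ} {K : Fin 6 → WA} (h : ∀ k, 2 ≤ kp (-2) k → (K 0).co k a = 0) (θ : ℝ) :
    e0 K (a, θ) = md a K 0 + (Real.cos θ : ℝ) * md a K 1 + (Real.sin θ : ℝ) * md a K 2 := by
  rw [e0, ev, tsum_eq_sum (s := {0, 1, -1}) fun k hk => ?_]
  · rw [Finset.sum_insert (by decide), Finset.sum_insert (by decide), Finset.sum_singleton, md_0,
      md_1, md_2, ch_zero, ch, ch]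
    simp only [Int.cast_one, one_mul, Int.cast_neg, neg_mul, ofReal_cos, ofReal_sin]
    rw [← neg_mul, exp_mul_I, exp_mul_I, cos_neg, sin_neg]
    ring
  · rcases kp_cases (Or.inl rfl) k with h1 | ⟨-, rfl⟩ | ⟨-, rfl | rfl⟩
    · rw [h k h1, zero_mul]
    all_goals simp at hk

lemma prof_eq_mu {a b w : ℝ} {α : ℂ} (P : Prof a b α) (hw : w ∈ Icc a b) :
    prof α w = P218CH.mu 0 α w := by
  have P0 := Prof.zero (b := b) P.pos
  have h0 := P.w_pos hw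
  have h1 : prof α w ^ 2 = P218CH.mu 0 α w ^ 2 := by rw [mu_sq' P0 P hw, prof_sq]; simp
  have p1 : ∀ {z : ℂ}, 0 < z.re → 0 < (Complex.sqrt z).re := fun {z} hz => by
    have h2 := congrArg Complex.re (csqrt_sq z)
    simp only [sq, mul_re] at h2
    refine (csqrt_re_nonneg z).lt_of_ne fun e => ?_
    rw [← e] at h2
    nlinarith [mul_self_nonneg (Complex.sqrt z).im]
  have h2 : 0 < (P218CH.mu 0 α w).re := by
    rw [P218CH.mu, rA, sqrt_Af_zero h0.le, div_eq_mul_inv, re_ofReal_mul, inv_re]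
    exact mul_pos (Real.sqrt_pos.2 (by positivity))
      (div_pos (p1 (P.A_re hw)) (normSq_pos.2 (P.rA_ne hw)))
  rcases sq_eq_sq_iff_eq_or_eq_neg.1 h1 with e | e
  · exact e
  · have h3 : 0 < (prof α w).re := p1 (P.re w hw)
    rw [e, neg_re] at h3
    linarith

lemma U0_eq_rp {a b : ℝ} {α : ℂ} (P : Prof a b α) (J : Fin 6 → WA) {p : ℝ × ℝ}
    (hp : p.1 ∈ Icc a b) : U0 α J p = 1 + e0 (rp a b 0 α J) p := by
  rw [U0, e0, ev_rp0 (Prof.zero P.pos) P J hp, prof_eq_mu P hp]; ring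

variable {V : Type*} [NormedAddCommGroup V] [NormedSpace ℂ V] {a s r K L0 R : ℝ} {RV : Set V}
  {Cf' : V × (Fin 6 → WA) → WA} {JS : Fin 6 → WA} {J : ℝ → ℂ × V → Fin 6 → WA}
  {Y : ℝ → Fin 3 → V → Fin 6 → WA}

/-- the limit solution -/
def O0 (L0 : ℝ) (JS : Fin 6 → WA) (Y : ℝ → Fin 3 → V → Fin 6 → WA) (v : V) : ℝ × ℝ → ℂ :=
  gl L0 fun L => Y L 0 v - JS

/-- its modes at the level `a` -/
def m0 (a L0 : ℝ) (JS : Fin 6 → WA) (Y : ℝ → Fin 3 → V → Fin 6 → WA) (v : V) : Fin 3 → ℂ :=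
  md a (Y L0 0 v - JS)

/-- the linearised solutions -/
def O1 (L0 : ℝ) (Y : ℝ → Fin 3 → V → Fin 6 → WA) (g : ℂ) (v : V) : ℝ × ℝ → ℂ :=
  gl L0 fun L => Yl (Y L) g v

/-- the slow solution -/
def ys (L0 : ℝ) (Y : ℝ → Fin 3 → V → Fin 6 → WA) : ℝ × ℝ → ℂ := gl L0 fun L => Y L 1 0

lemma SEnd_ev_le (hS : SEnd a R JS) (hR : R ≤ 1) (ha : 10 ^ 30 ≤ a) (l : Fin 6) {w : ℝ}
    (hw : a ≤ w) (θ : ℝ) : ‖(JS l).ev w θ‖ ≤ ep a := by
  have a0 : 0 < a := by linarith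
  have h1 : om a 0 w ≤ ep a := by
    simpa [dl0 (a0.trans_le hw)] using ((rg0 ha le_rfl hw).pt (right_mem_Icc.2 hw)).om_le'
  have h2 := (hS.bdS l).ev_le hw (ep_pos a0).le h1 h1 θ
  nlinarith [ep_pos a0]

lemma clpL (a L : ℝ) : ∃ T : (Fin 6 → WA) →L[ℂ] (Fin 6 → WA), ∀ K, T K = clp a L K :=
  ⟨.pi fun l => (compL (cl a L)).comp (.proj l), fun _ => rfl⟩

section can
variable (h : Can a s r K L0 RV Cf' JS J Y)
include h

lemma can_cpt (n : Fin 3) {v : V} (hv : v ∈ ball (0 : V) r) : Cpt a L0 fun L => Y L n v :=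
  cpt_of_clp fun L L' h1 h2 => h.compat L L' h1 h2 n v hv

lemma can_cpt_Yl (hr : 0 < r) (g : ℂ) (v : V) : Cpt a L0 fun L => Yl (Y L) g v :=
  cpt_of_clp fun L L' h1 h2 => by
    obtain ⟨T, hT⟩ := clpL a L
    have e : Y L 0 =ᶠ[𝓝 0] T ∘ Y L' 0 := mem_of_superset (ball_mem_nhds (0 : V) hr) fun u hu => by
      rw [mem_ofPred_eq, Function.comp_apply, hT, h.compat L L' h1 h2 0 u hu]
    have d := (h.holo L' (h1.trans h2) 0).differentiableAt (ball_mem_nhds 0 hr)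
    rw [← hT, Yl, Yl, map_add, map_smul, hT, h.compat L L' h1 h2 1 0 (mem_ball_self hr),
      e.fderiv_eq, (T.hasFDerivAt.comp 0 d.hasFDerivAt).fderiv]
    rfl

lemma O0_eq {v : V} (hv : v ∈ ball (0 : V) r) {L : ℝ} (hL : L0 ≤ L) {p : ℝ × ℝ}
    (hp : p.1 ∈ Icc a L) : O0 L0 JS Y v p = e0 (Y L 0 v - JS) p :=
  ((can_cpt h 0 hv).sub JS).eq hL hp

lemma O0_cont {v : V} (hv : v ∈ ball (0 : V) r) :
    ContinuousOn (O0 L0 JS Y v) (Ici a ×ˢ univ) := ((can_cpt h 0 hv).sub JS).cont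

lemma O0_zero (hr : 0 < r) {p : ℝ × ℝ} (hp : a ≤ p.1) : O0 L0 JS Y 0 p = 0 := by
  have hp' : p.1 ∈ Icc a (max L0 p.1) := ⟨hp, le_max_right _ _⟩
  rw [O0_eq h (mem_ball_self hr) (le_max_left _ _) hp', e0_sub, h.zero _ (le_max_left _ _), e0,
    clp, ev_comp, cl_of_mem hp', e0, sub_self]

lemma m0_zero (has : a ≤ s) : m0 a L0 JS Y 0 = 0 := by
  rw [m0, map_sub, h.zero L0 le_rfl, md_clp (has.trans h.le), sub_self]

lemma O0_hol0 (p : ℝ × ℝ) : DifferentiableOn ℂ (fun v => O0 L0 JS Y v p) (ball 0 r) :=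
  (evL p.1 p.2).differentiable.comp_differentiableOn
    (differentiableOn_pi.1 ((h.holo _ (le_max_left _ _) 0).sub_const JS) 0)

lemma m0_hol : DifferentiableOn ℂ (m0 a L0 JS Y) (ball 0 r) :=
  (md a).differentiable.comp_differentiableOn ((h.holo _ le_rfl 0).sub_const JS)

lemma O0_pj (hS : SEnd a R JS) (ha : 0 < a) {v : V} (hv : v ∈ ball (0 : V) r) {L : ℝ}
    (hL : L0 ≤ L) {p : ℝ × ℝ} (hp : p.1 ∈ Ioo a L) :
    ContDiffAt ℝ 2 (O0 L0 JS Y v) p ∧ pj (O0 L0 JS Y v) p = jtL p (Y L 0 v - JS) :=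
  ((can_cpt h 0 hv).sub JS).pj ha hL ((h.jet L hL 0 v hv).sub (hS.jet L (hp.1.trans hp.2).le)) hp

lemma O0_hol2 (hS : SEnd a R JS) (ha : 0 < a) {p : ℝ × ℝ} (hp : a < p.1) :
    DifferentiableOn ℂ (fun v => pj (O0 L0 JS Y v) p) (ball 0 r) :=
  ((jtL p).differentiable.comp_differentiableOn
    ((h.holo _ (le_max_left _ _) 0).sub_const JS)).congr fun _ hv =>
      (O0_pj h hS ha hv (le_max_left _ _) (mem_lev L0 hp)).2

lemma O0_bd0 (hS : SEnd a R JS) (hR : R ≤ 1) (ha : 10 ^ 30 ≤ a) {v : V} (hv : v ∈ ball (0 : V) r)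
    {p : ℝ × ℝ} (hp : a ≤ p.1) : ‖O0 L0 JS Y v p‖ ≤ 2 * ep a := by
  rw [O0, gl, e0_sub]
  exact (norm_sub_le_of_le ((norm_e0_le _ _).trans (h.bd0 _ (le_max_left _ _) v hv))
    (SEnd_ev_le hS hR ha 0 hp _)).trans_eq (by ring)

lemma O0_bd2 (hS : SEnd a R JS) (ha : 1 ≤ a) {v : V} (hv : v ∈ ball (0 : V) r)
    {p : ℝ × ℝ} (hp : a < p.1) : ‖pj (O0 L0 JS Y v) p‖ ≤ ep a + ‖JS‖ := by
  rw [(O0_pj h hS (by linarith) hv (le_max_left _ _) (mem_lev L0 hp)).2]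
  exact (norm_jtL_le _ (by linarith)).trans
    (norm_sub_le_of_le (h.bd0 _ (le_max_left _ _) v hv) le_rfl)

lemma m0_bd (has : a ≤ s) (hr : 0 < r) {v : V} (hv : v ∈ ball (0 : V) r) :
    ‖m0 a L0 JS Y v‖ ≤ 4 * ep a := by
  rw [m0, map_sub, ← md_clp (has.trans h.le) JS, ← h.zero L0 le_rfl, ← map_sub]
  linarith [norm_md_le a (Y L0 0 v - Y L0 0 0),
    norm_sub_le_of_le (h.bd0 _ le_rfl v hv) (h.bd0 _ le_rfl 0 (mem_ball_self hr))]

lemma O0_bdry (has : a ≤ s) {v : V} (hv : v ∈ ball (0 : V) r) (θ : ℝ) :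
    O0 L0 JS Y v (a, θ) = m0 a L0 JS Y v 0 + (Real.cos θ : ℝ) * m0 a L0 JS Y v 1 +
      (Real.sin θ : ℝ) * m0 a L0 JS Y v 2 := by
  rw [O0_eq h hv le_rfl (left_mem_Icc.2 (has.trans h.le))]
  refine e0_bdry (fun k hk => ?_) θ
  simp [h.dir L0 le_rfl 0 v hv k hk]

lemma O0_real (hS : SEnd a R JS) {v : V} (hv : v ∈ ball (0 : V) r) (hr : v ∈ RV) :
    (∀ p, (O0 L0 JS Y v p).im = 0) ∧ ∀ j, (m0 a L0 JS Y v j).im = 0 := by
  have e : ∀ L, L0 ≤ L → cj ((Y L 0 v - JS) 0) = (Y L 0 v - JS) 0 := fun L hL =>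
    (map_sub cjR _ _).trans (congrArg₂ _ (h.real L hL 0 v hv hr 0) (hS.realS 0))
  exact ⟨fun p => im_e0 (e _ (le_max_left _ _)) p, im_md (e _ le_rfl)⟩

lemma O1_pj (ha : 0 < a) (hr : 0 < r) (g : ℂ) (v : V) {L : ℝ} (hL : L0 ≤ L) {p : ℝ × ℝ}
    (hp : p.1 ∈ Ioo a L) :
    ContDiffAt ℝ 2 (O1 L0 Y g v) p ∧ pj (O1 L0 Y g v) p = jtL p (Yl (Y L) g v) :=
  (can_cpt_Yl h hr g v).pj ha hL (h.ljet L hL g v) hp

lemma O1_bd (hr : 0 < r) (v : V) (p : ℝ × ℝ) : ‖O1 L0 Y 0 v p‖ ≤ ep a / r * ‖v‖ := by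
  refine (norm_e0_le _ _).trans ?_
  rw [Yl, zero_smul, zero_add]
  exact (ContinuousLinearMap.le_opNorm _ _).trans (mul_le_mul_of_nonneg_right
    (P281.MF.norm_fderiv_le_of_ball hr (h.holo _ (le_max_left _ _) 0)
      (h.bd0 _ (le_max_left _ _))) (norm_nonneg _))

omit h in
lemma O1_eq (g : ℂ) (v : V) (p : ℝ × ℝ) : O1 L0 Y g v p = g * ys L0 Y p + O1 L0 Y 0 v p := by
  simp [O1, ys, gl, e0, Yl, ev_add, ev_smul]

omit h in
lemma O1_one : O1 L0 Y 1 0 = ys L0 Y := by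
  simp only [O1, ys, Yl, one_smul, map_zero, add_zero]

lemma ys_real (hr : 0 < r) (h0 : (0 : V) ∈ RV) (p : ℝ × ℝ) : (ys L0 Y p).im = 0 :=
  im_e0 (h.real _ (le_max_left _ _) 1 0 (mem_ball_self hr) h0 0) p

lemma ys_grow (hr : 0 < r) {p : ℝ × ℝ} (hp : L0 ≤ p.1) : ‖ys L0 Y p + p.1 / 2‖ ≤ p.1 / 4 :=
  h.grow _ (le_max_left _ _) 0 (mem_ball_self hr) _ ⟨hp, le_max_right _ _⟩ _

lemma ys_pj (ha : 0 < a) (hr : 0 < r) {L : ℝ} (hL : L0 ≤ L) {p : ℝ × ℝ} (hp : p.1 ∈ Ioo a L) :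
    ContDiffAt ℝ 2 (ys L0 Y) p ∧ pj (ys L0 Y) p = jtL p (Y L 1 0) :=
  (can_cpt h 1 (mem_ball_self hr)).pj ha hL (h.jet L hL 1 0 (mem_ball_self hr)) hp

lemma ys_bdry (has : a ≤ s) (hr : 0 < r) (θ : ℝ) : ys L0 Y (a, θ) = md a (Y L0 1 0) 0 +
    (Real.cos θ : ℝ) * md a (Y L0 1 0) 1 + (Real.sin θ : ℝ) * md a (Y L0 1 0) 2 := by
  rw [ys, (can_cpt h 1 (mem_ball_self hr)).eq le_rfl (left_mem_Icc.2 (has.trans h.le))]
  refine e0_bdry (fun k hk => ?_) θ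
  simp [h.dir L0 le_rfl 1 0 (mem_ball_self hr) k hk]

end can

variable {S : Set E3} {w : E3 → ℝ} {δ C : ℝ} {ι κ M : Type} [TopologicalSpace M]
  [ChartedSpace P218VA.E2 M] {m : Model S w δ C ι κ M} {i : ι} {s0 : ℝ} {D : V →L[ℂ] T3 WA}

namespace SJet
variable (hJ : SJet m i s0 JS) (ha : s0 ≤ a) (h : Can a (a + 6) r K L0 RV (Cf a JS D) JS J Y)
include hJ ha h

/-- the limit family solves the equation on the whole end -/
theorem O0_sol {v : V} (hv : v ∈ ball (0 : V) r) :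
    EndSol (cylOp m i) a (Ioi a) (evT (D v)) (O0 L0 JS Y v) := by
  have key : ∀ p : ℝ × ℝ, a < p.1 → _ := fun p hp =>
    ((can_cpt h 0 hv).sub JS).pj (hJ.pos ha) (le_max_left _ _)
      ((h.jet _ (le_max_left _ _) 0 v hv).sub (hJ.jet ha _)) (mem_lev L0 hp)
  refine ⟨per_gl _ _, fun p hp => (key p hp).1, fun p hp => ?_⟩
  have hp' := Ioo_subset_Icc_self (mem_lev L0 hp)
  have e := congrArg (fun x : WA => x.ev p.1 p.2) (h.eq0 _ (le_max_left L0 (p.1 + 1)) v hv)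
  simp only [dfc, ev_comp, cl_of_mem hp', ev_zero, hJ.ev_dfc ha _ _ hp'] at e
  rw [O0, (key p hp).2, e]

/-- the derivatives solve the linearised equation -/
theorem linEnd (hr : 0 < r) (g : ℂ) (v : V) :
    LinEnd (cylOp m i) a (evT (D v)) (O1 L0 Y g v) := by
  have key : ∀ p : ℝ × ℝ, a < p.1 → _ := fun p hp =>
    O1_pj h (hJ.pos ha) hr g v (le_max_left _ _) (mem_lev L0 hp)
  refine ⟨per_gl _ _, (can_cpt_Yl h hr g v).cont, fun p hp => (key p hp).1, fun p hp => ?_⟩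
  have hp' := Ioo_subset_Icc_self (mem_lev L0 hp)
  have e := (evL p.1 p.2).hasFDerivAt.comp_hasDerivAt (0 : ℂ)
    (h.leq _ (le_max_left L0 (p.1 + 1)) g v)
  have e1 : ∀ (t : ℂ) (x : T3 WA), evT (t • x) p = t • evT x p := fun t x => by
    simp [evT, ev_smul]
  simp only [Function.comp_def, evL_apply, dfc, ev_comp, cl_of_mem hp', ev_zero,
    hJ.ev_dfc ha _ _ hp', map_smul, map_sub, map_add, jtL_clp _ hp', add_sub_cancel_left, e1] at e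
  rwa [(key p hp).2]

/-- the slow solution solves the homogeneous linearised equation -/
theorem ys_linEnd (hr : 0 < r) : LinEnd (cylOp m i) a 0 (ys L0 Y) := by
  have := hJ.linEnd ha h hr 1 0
  rw [O1_one, map_zero] at this
  exact linEnd_congr this fun p _ _ => by simp [evT, ev_zero, Prod.ext_iff]

end SJet

end Vale.Agent.P218XI
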