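import Vale.Agent.P218EF.Fun
import Vale.Agent.P218MP.OfFun
import Vale.Agent.P218GA.Model

/-! From functions of `(w, θ)` to coefficientwise jets in the Wiener algebra. -/

open scoped Topology Real ContDiff
open Complex Filter Set

noncomputable section

namespace Vale.Agent.P218XI

open Vale.Agent.P218VA Vale.Agent.P218GA Vale.Agent.P218EN Vale.Agent.P218EN.WA
open Vale.Agent.P218MP (fc fc_deriv fc_const_mul norm_fc_le_wt summable_wt wt_nonneg WOK)

lemma co_eq_fc (x : WA) (k : ℤ) (w : ℝ) : x.co k w = fc (x.ev w) k := by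
  have h : (2 * π : ℂ) ≠ 0 := mul_ne_zero two_ne_zero (by exact_mod_cast Real.pi_ne_zero)
  have e : ∀ θ : ℝ, cexp (-(k * θ * I)) * x.ev w θ = x.ev w θ * ch (-k) θ := fun θ => by
    rw [mul_comm, ch]; push_cast; ring_nf
  simp only [fc, e, integral_ev]
  field_simp

lemma cont_ev (x : WA) (w : ℝ) : Continuous (x.ev w) :=
  x.continuous_ev.comp (continuous_const.prodMk continuous_id)

lemma co_dth {x y : WA} {s s' : ℂ} {w : ℝ}
    (h : ∀ θ, HasDerivAt (fun t => s * x.ev w t) (s' * y.ev w θ) θ) (k : ℤ) :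
    s' * y.co k w = k * I * (s * x.co k w) := by
  rw [co_eq_fc, co_eq_fc, ← fc_const_mul, ← fc_const_mul]
  exact fc_deriv h (continuous_const.mul (cont_ev y w))
    (fun θ => by simp only [P218EF.ev_per]) k

lemma co_dw0 {x y : WA} {a b : ℝ}
    (h : ∀ θ, ∀ w ∈ Ioo a b, HasDerivAt (fun u => x.ev u θ) (y.ev w θ) w) (k : ℤ) {w : ℝ}
    (hw : w ∈ Icc a b) : HasDerivWithinAt (x.co k) (y.co k w) (Icc a b) w := by
  have hs : Summable fun j => ‖prim a b a (y.co j)‖ :=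
    Summable.of_nonneg_of_le (fun _ => norm_nonneg _) (fun j => (prim a b a).le_opNorm _)
      (y.summable.mul_left _)
  have cw : ∀ (z : WA) θ, Continuous fun u => z.ev u θ := fun z θ =>
    z.continuous_ev.comp (continuous_id.prodMk continuous_const)
  have key : WEq (Icc a b) (x - comp (ContinuousMap.const ℝ a) x) (mk _ hs) := by
    refine wEq_iff.2 fun u hu θ => ?_
    have h1 := intervalIntegral.hasSum_integral_of_dominated_convergence
      (μ := MeasureTheory.volume) (a := a) (b := u) (F := fun j s => y.co j s * ch j θ)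
      (f := fun s => y.ev s θ) (fun j _ => ‖y.co j‖)
      (fun j => ((y.co j).continuous.mul continuous_const).aestronglyMeasurable)
      (fun j => Eventually.of_forall fun s _ => by
        rw [norm_mul, norm_ch, mul_one]; exact (y.co j).norm_coe_le_norm s)
      (Eventually.of_forall fun _ _ => y.summable) intervalIntegrable_const
      (Eventually.of_forall fun s _ => y.hasSum_ev s θ)
    simp only [intervalIntegral.integral_mul_const] at h1
    rw [intervalIntegral.integral_eq_sub_of_hasDerivAt_of_le hu.1 (cw x θ).continuousOn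
      (fun s hs => h θ s ⟨hs.1, hs.2.trans_le hu.2⟩) ((cw y θ).intervalIntegrable _ _)] at h1
    rw [← evA_apply, map_sub, evA_apply, evA_apply, ev_comp, ContinuousMap.const_apply,
      ← h1.tsum_eq, ev]
    exact tsum_congr fun j => by rw [co_mk, prim_apply, cl_of_mem hu]
  have e : ∀ u ∈ Icc a b, x.co k u = prim a b a (y.co k) u + x.co k a := fun u hu => by
    have := key k u hu
    rw [co_mk, co_sub, BoundedContinuousFunction.sub_apply, co_comp,
      ContinuousMap.const_apply] at this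
    rw [← this]; ring
  exact ((hasDeriv_prim a b a (y.co k) hw).add_const _).congr e (e w hw)

lemma co_dw {x y : WA} {a b : ℝ} {s s' : ℝ → ℂ} (hs : ContinuousOn s (Icc a b))
    (hs' : ContinuousOn s' (Icc a b))
    (h : ∀ θ, ∀ w ∈ Ioo a b, HasDerivAt (fun u => s u * x.ev u θ) (s' w * y.ev w θ) w) (k : ℤ)
    {w : ℝ} (hw : w ∈ Icc a b) :
    HasDerivWithinAt (fun u => s u * x.co k u) (s' w * y.co k w) (Icc a b) w := by
  have h1 := co_dw0 (x := sc (mkB a b s) * x) (y := sc (mkB a b s') * y) (fun θ u hu => by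
    rw [ev_mul, ev_sc, mkB_of_mem hs' (Ioo_subset_Icc_self hu)]
    refine (h θ u hu).congr_of_eventuallyEq ?_
    filter_upwards [Ioo_mem_nhds hu.1 hu.2] with v hv
    rw [ev_mul, ev_sc, mkB_of_mem hs (Ioo_subset_Icc_self hv)]) k hw
  rw [co_sc_mul, mkB_of_mem hs' hw] at h1
  exact h1.congr (fun u hu => by rw [co_sc_mul, mkB_of_mem hs hu])
    (by rw [co_sc_mul, mkB_of_mem hs hw])

lemma co_dw_Ici {x y : WA} {a : ℝ} {s s' : ℝ → ℂ} (hs : ContinuousOn s (Ici a))
    (hs' : ContinuousOn s' (Ici a))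
    (h : ∀ θ, ∀ w, a < w → HasDerivAt (fun u => s u * x.ev u θ) (s' w * y.ev w θ) w) (k : ℤ)
    {w : ℝ} (hw : a ≤ w) :
    HasDerivWithinAt (fun u => s u * x.co k u) (s' w * y.co k w) (Ici a) w :=
  (co_dw (b := w + 1) (hs.mono Icc_subset_Ici_self) (hs'.mono Icc_subset_Ici_self)
    (fun θ u hu => h θ u hu.1) k ⟨hw, by linarith⟩).mono_of_mem_nhdsWithin
    (mem_nhdsWithin.2 ⟨Iio (w + 1), isOpen_Iio, lt_add_one w, fun _ hu => ⟨hu.2, hu.1.le⟩⟩)

/-- the converse of `jet2_of_jet` -/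
theorem jet_of_jet2 {a b : ℝ} {A : ℝ → ℂ} {J : Fin 6 → WA} (cA : ContinuousOn A (Icc a b))
    (hA : ∀ w ∈ Icc a b, A w ≠ 0)
    (h : Jet2 (Icc a b) (fun p => (J 0).ev p.1 p.2) (fun p => A p.1 * (J 3).ev p.1 p.2)
      (fun p => (J 1).ev p.1 p.2) (fun p => A p.1 * (J 4).ev p.1 p.2)
      (fun p => Complex.sqrt (A p.1) * (J 5).ev p.1 p.2) (fun p => (J 2).ev p.1 p.2)) :
    Jet a b A J := by
  have i1 : ∀ w ∈ Ioo a b, w ∈ interior (Icc a b) := fun w hw => by rwa [interior_Icc]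
  refine ⟨fun k w hw => ?_, fun k w hw => co_dw cA cA (fun θ u hu => h.j1.dw u (i1 u hu) θ) k hw,
    fun k w hw => ?_, fun k w hw => ?_, fun k w hw => ?_⟩
  · simpa using co_dw (s := fun _ => 1) continuousOn_const cA
      (fun θ u hu => by simpa using h.j0.dw u (i1 u hu) θ) k hw
  · simpa using co_dth (s := 1) (s' := 1) (fun θ => by simpa using h.j0.dθ w hw θ) k
  · simpa using co_dth (s := 1) (s' := 1) (fun θ => by simpa using h.j2.dθ w hw θ) k
  · have h1 := co_dth (s := A w) (s' := Complex.sqrt (A w)) (x := J 3) (y := J 5) (w := w)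
      (fun θ => h.j1.dθ w hw θ) k
    have h2 := csqrt_sq (A w)
    have h3 : Complex.sqrt (A w) ≠ 0 := fun e => hA w hw (by rw [← h2, e]; ring)
    refine mul_left_cancel₀ h3 (h1.trans ?_)
    linear_combination (-(k * I * (J 3).co k w)) * h2

/-- the constant in the passage from sup norms to the Wiener norm -/
def CF : ℝ := ∑' k, P218MP.wt 1 k

lemma CF_nonneg : 0 ≤ CF := tsum_nonneg (wt_nonneg 1)

lemma lip_of_deriv {f f' : ℝ → ℂ} (h : ∀ θ, HasDerivAt f (f' θ) θ) {N : ℝ}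
    (hN : ∀ θ, ‖f' θ‖ ≤ N) (x y : ℝ) : ‖f x - f y‖ ≤ N * |x - y| ^ (1 : ℝ) := by
  rw [Real.rpow_one]
  exact (convex_univ.norm_image_sub_le_of_norm_hasDerivWithin_le
    (fun t _ => (h t).hasDerivWithinAt) (fun t _ => hN t) (mem_univ y) (mem_univ x))

/-- weighted bounds from bounds of the function and its second derivative in the angle -/
lemma bd_of_fun {S : Set ℝ} {x : WA} {f1 f2 : ℝ → ℝ → ℂ} {ρ : ℝ → ℝ} {N : ℝ} (hN : 0 ≤ N)
    (h1 : ∀ w ∈ S, ∀ θ, HasDerivAt (x.ev w) (f1 w θ) θ)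
    (h2 : ∀ w ∈ S, ∀ θ, HasDerivAt (f1 w) (f2 w θ) θ)
    (b0 : ∀ w ∈ S, ∀ θ, ‖x.ev w θ‖ ≤ N * ρ w) (b2 : ∀ w ∈ S, ∀ θ, ‖f2 w θ‖ ≤ N * ρ w) :
    Bd S ρ ρ x (CF * N) := by
  refine ⟨fun k => P218MP.wt 1 k * N, fun k => mul_nonneg (wt_nonneg 1 k) hN,
    (summable_wt one_pos).mul_right N, tsum_mul_right.le, fun k w hw => ?_⟩
  have e : P218EN.wt ρ ρ k w = ρ w := by unfold P218EN.wt; split_ifs <;> rfl
  rw [e, co_eq_fc]
  refine (norm_fc_le_wt (h1 w hw) (continuous_iff_continuousAt.2 fun θ => (h2 w hw θ).continuousAt)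
    (P218EF.ev_per x w) (b0 w hw) (lip_of_deriv (h2 w hw) (b2 w hw)) k).trans (le_of_eq ?_)
  ring

/-- all derivatives of a function on a half cylinder, with the decay of the ends of the model -/
structure Tow (w0 : ℝ) (T : ℕ → ℕ → ℝ × ℝ → ℂ) : Prop where
  cont : ∀ a b p, w0 < p.1 → ContinuousAt (T a b) p
  dw : ∀ a b w θ, w0 < w → HasDerivAt (fun s => T a b (s, θ)) (T (a + 1) b (w, θ)) w
  dθ : ∀ a b w θ, w0 < w → HasDerivAt (fun s => T a b (w, s)) (T a (b + 1) (w, θ)) θ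
  per : ∀ a b w θ, w0 < w → T a b (w, θ + 2 * π) = T a b (w, θ)
  lim : ∀ a b, ToZero fun p => (p.1 : ℂ) ^ a * T a b p

namespace Tow
variable {w0 : ℝ} {T : ℕ → ℕ → ℝ × ℝ → ℂ} (h : Tow w0 T)
include h

lemma jet1 {I : Set ℝ} (hI : ∀ w ∈ I, w0 < w) (a b : ℕ) :
    Jet1 I (T a b) (T (a + 1) b) (T a (b + 1)) :=
  ⟨fun p hp => (h.cont _ _ p (hI _ hp.1)).continuousWithinAt,
    fun p hp => (h.cont _ _ p (hI _ hp.1)).continuousWithinAt,
    fun p hp => (h.cont _ _ p (hI _ hp.1)).continuousWithinAt,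
    fun w hw θ => h.dw a b w θ (hI w (interior_subset hw)), fun w hw θ => h.dθ a b w θ (hI w hw),
    fun w hw θ => h.per a b w θ (hI w hw)⟩

lemma jet2 {I : Set ℝ} (hI : ∀ w ∈ I, w0 < w) (a b : ℕ) :
    Jet2 I (T a b) (T (a + 1) b) (T a (b + 1)) (T (a + 2) b) (T (a + 1) (b + 1)) (T a (b + 2)) :=
  ⟨h.jet1 hI a b, h.jet1 hI (a + 1) b, h.jet1 hI a (b + 1)⟩

lemma bdd {s : ℝ} (hs : w0 < s) (a b : ℕ) :
    ∃ N, 0 ≤ N ∧ ∀ w θ, s ≤ w → ‖(w : ℂ) ^ a * T a b (w, θ)‖ ≤ N := by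
  obtain ⟨W, hW⟩ := h.lim a b 1 one_pos
  obtain ⟨N, hN⟩ := (isCompact_Icc (a := s) (b := W)).prod (isCompact_Icc (a := 0) (b := 2 * π))
    |>.exists_bound_of_continuousOn (f := fun p : ℝ × ℝ => (p.1 : ℂ) ^ a * T a b p) fun p hp =>
      (ContinuousAt.mul (by fun_prop) (h.cont a b p (hs.trans_le hp.1.1))).continuousWithinAt
  refine ⟨max N 1, by positivity, fun w θ hw => ?_⟩
  rcases le_total W w with h1 | h1
  · exact (hW (w, θ) h1).trans (le_max_right _ _)
  · have hp : Function.Periodic (fun t => T a b (w, t)) (2 * π) := fun t =>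
      h.per a b w t (hs.trans_le hw)
    obtain ⟨t, ht, e⟩ := hp.exists_mem_Ico₀ Real.two_pi_pos θ
    rw [e]
    exact (hN (w, t) ⟨⟨hw, h1⟩, Ico_subset_Icc_self ht⟩).trans (le_max_left _ _)

/-- normalised derivatives as elements of the Wiener algebra -/
theorem exists_WA {s K : ℝ} (hs : w0 < s) {c : ℝ → ℂ} (hc : ContinuousOn c (Ici s)) (a b : ℕ)
    (hK : ∀ w, s ≤ w → ‖c w‖ ≤ K * ‖(w : ℂ) ^ a‖) (hK0 : 0 < K) :
    ∃ x : WA, (∀ w θ, x.ev w θ = c (max s w) * T a b (max s w, θ)) ∧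
      ∀ ε, 0 < ε → ∃ w1, Bd (Ici w1) 1 1 x ε := by
  have hb : ∀ b' w θ N, s ≤ w → ‖(w : ℂ) ^ a * T a b' (w, θ)‖ ≤ N →
      ‖c w * T a b' (w, θ)‖ ≤ K * N := fun b' w θ N hw hN => by
    rw [norm_mul] at hN ⊢
    calc _ ≤ K * ‖(w : ℂ) ^ a‖ * ‖T a b' (w, θ)‖ := by gcongr; exact hK w hw
      _ ≤ K * N := by rw [mul_assoc]; gcongr
  have hm : ∀ w, w0 < max s w := fun w => hs.trans_le (le_max_left _ _)
  have d : ∀ b' w θ, HasDerivAt (fun t => c (max s w) * T a b' (max s w, t))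
      (c (max s w) * T a (b' + 1) (max s w, θ)) θ := fun b' w θ =>
    (h.dθ a b' _ θ (hm w)).const_mul _
  obtain ⟨N0, p0, h0⟩ := h.bdd hs a b
  obtain ⟨N2, p2, h2⟩ := h.bdd hs a (b + 2)
  have ok : WOK 1 (K * (N0 + N2)) fun w θ => c (max s w) * T a b (max s w, θ) := by
    refine ⟨?_, fun w θ => by simp only [h.per a b _ θ (hm w)],
      fun w θ => hb b _ θ _ (le_max_left _ _) ((h0 _ θ (le_max_left _ _)).trans (by linarith)),
      fun w => ⟨_, d b w, continuous_iff_continuousAt.2 fun θ => (d _ w θ).continuousAt,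
        lip_of_deriv (d _ w) fun θ => hb _ _ θ _ (le_max_left _ _)
          ((h2 _ θ (le_max_left _ _)).trans (by linarith))⟩⟩
    refine (hc.comp_continuous (f := fun p : ℝ × ℝ => max s p.1) (by fun_prop)
      fun p => mem_Ici.2 (le_max_left _ _)).mul
      (continuous_iff_continuousAt.2 fun p => ?_)
    exact ContinuousAt.comp (f := fun p : ℝ × ℝ => (max s p.1, p.2)) (h.cont a b _ (hm _))
      (by fun_prop)
  obtain ⟨x, hx, -⟩ := ok.exists_WA one_pos
  refine ⟨x, hx, fun ε hε => ?_⟩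
  have hC := CF_nonneg
  obtain ⟨W0, k0⟩ := h.lim a b (ε / (K * (CF + 1))) (by positivity)
  obtain ⟨W2, k2⟩ := h.lim a (b + 2) (ε / (K * (CF + 1))) (by positivity)
  refine ⟨max W0 W2, (bd_of_fun (N := K * (ε / (K * (CF + 1)))) (by positivity)
    (f1 := fun w θ => c (max s w) * T a (b + 1) (max s w, θ))
    (f2 := fun w θ => c (max s w) * T a (b + 2) (max s w, θ))
    (fun w _ θ => by rw [funext (hx w)]; exact d b w θ) (fun w _ θ => d _ w θ)
    (fun w hw θ => ?_) fun w hw θ => ?_).mono ?_⟩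
  · rw [hx, Pi.one_apply, mul_one]
    exact hb _ _ _ _ (le_max_left _ _)
      (k0 (max s w, θ) (((le_max_left _ _).trans hw).trans (le_max_right _ _)))
  · rw [Pi.one_apply, mul_one]
    exact hb _ _ _ _ (le_max_left _ _)
      (k2 (max s w, θ) (((le_max_right _ _).trans hw).trans (le_max_right _ _)))
  · rw [show K * (ε / (K * (CF + 1))) = ε / (CF + 1) by field_simp, ← mul_div_assoc,
      div_le_iff₀ (by positivity)]
    nlinarith

end Tow

section real
variable {w0 : ℝ} {g : ℝ × ℝ → ℝ}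

lemma sm_iter (hg : ∀ p : ℝ × ℝ, w0 < p.1 → ContDiffAt ℝ ∞ g p) (v : ℝ × ℝ) (n : ℕ) :
    ∀ p : ℝ × ℝ, w0 < p.1 → ContDiffAt ℝ ∞ ((fun f => pd f v)^[n] g) p := by
  induction n with
  | zero => exact hg
  | succ n ih =>
    intro p hp
    rw [Function.iterate_succ_apply']
    exact contDiffAt_pd (ih p hp) (by simp) v

lemma per_iter (hp : ∀ w ∈ Ioi w0, ∀ θ, g (w, θ + 2 * π) = g (w, θ)) (v : ℝ × ℝ) (n : ℕ) :
    ∀ w ∈ Ioi w0, ∀ θ, (fun f => pd f v)^[n] g (w, θ + 2 * π) = (fun f => pd f v)^[n] g (w, θ) := by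
  induction n with
  | zero => exact hp
  | succ n ih =>
    intro w hw θ
    rw [Function.iterate_succ_apply']
    exact pd_periodic isOpen_Ioi ih v hw θ

lemma dth_iter (hg : ∀ p : ℝ × ℝ, w0 < p.1 → ContDiffAt ℝ ∞ g p) (n : ℕ) :
    ∀ p : ℝ × ℝ, w0 < p.1 → dth (dw^[n] g) p = dw^[n] (dth g) p := by
  induction n with
  | zero => exact fun _ _ => rfl
  | succ n ih =>
    intro p hp
    rw [Function.iterate_succ_apply', Function.iterate_succ_apply']
    refine (pd_comm ((sm_iter hg (1, 0) n p hp).of_le (by norm_cast)) _ _).trans (pd_congr ?_ _)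
    filter_upwards [continuous_fst.continuousAt.eventually (lt_mem_nhds hp)] with q hq
    exact ih q hq

theorem tow_of (hg : ∀ p : ℝ × ℝ, w0 < p.1 → ContDiffAt ℝ ∞ g p)
    (hp : ∀ w θ, g (w, θ + 2 * π) = g (w, θ))
    (hl : ∀ a b : ℕ, ToZero fun p => p.1 ^ a * dw^[a] (dth^[b] g) p) :
    Tow w0 fun a b p => (dw^[a] (dth^[b] g) p : ℝ) := by
  have sm : ∀ (a b : ℕ) (p : ℝ × ℝ), w0 < p.1 → ContDiffAt ℝ ∞ (dw^[a] (dth^[b] g)) p :=
    fun a b => sm_iter (sm_iter hg (0, 1) b) (1, 0) a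
  refine ⟨fun a b p h => continuous_ofReal.continuousAt.comp (sm a b p h).continuousAt,
    fun a b w θ h => ?_, fun a b w θ h => ?_, fun a b w θ h => ?_, fun a b ε hε => ?_⟩
  · rw [Function.iterate_succ_apply']
    exact (hasDerivAt_fst ((sm a b _ h).differentiableAt (by simp))).ofReal_comp
  · rw [Function.iterate_succ_apply', ← dth_iter (g := dth^[b] g) (sm_iter hg (0, 1) b) a (w, θ) h]
    exact (hasDerivAt_snd ((sm a b _ h).differentiableAt (by simp))).ofReal_comp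
  · exact congrArg _ (per_iter (per_iter (fun w _ => hp w) (0, 1) b) (1, 0) a w h θ)
  · obtain ⟨W, hW⟩ := hl a b ε hε
    refine ⟨W, fun p hp => ?_⟩
    have := hW p hp
    rwa [← norm_real, ofReal_mul, ofReal_pow] at this

end real

end Vale.Agent.P218XI
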