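import Vale.Agent.P218XI.Fun
import Vale.Agent.P218XI.Wa

/-! The ends of the model as solutions of the end problems. -/

open scoped Matrix Topology Real ContDiff
open Complex Filter Set

noncomputable section

namespace Vale.Agent.P218XI

open Vale.Agent.P218VA Vale.Agent.P218GA Vale.Agent.P218EN Vale.Agent.P218EN.WA

variable {S : Set E3} {w : E3 → ℝ} {δ C : ℝ} {ι κ M : Type} [TopologicalSpace M]
  [ChartedSpace E2 M] (m : Model S w δ C ι κ M)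

/-- the derivatives of `U - 1` on a cylindrical end -/
def TU (i : ι) (a b : ℕ) (p : ℝ × ℝ) : ℂ := (dw^[a] (dth^[b] fun q => m.U i q - 1) p : ℝ)

/-- the derivatives of `t` on a conical end -/
def Tt (j : κ) (a b : ℕ) (p : ℝ × ℝ) : ℂ := (dw^[a] (dth^[b] (m.t j)) p : ℝ)

theorem tow_cyl (i : ι) : Tow m.w0 (TU m i) :=
  tow_of (fun p hp => (m.U_smooth i p hp).sub contDiffAt_const)
    (fun w θ => by simp only [m.U_periodic]) (m.U_lim i)

theorem tow_cone (j : κ) : Tow m.w0 (Tt m j) := tow_of (m.t_smooth j) (m.t_periodic j) (m.t_lim j)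

lemma pos_of_lt {x : ℝ} (h : m.w0 < x) : 0 < x := by linarith [m.one_le]

/-- the equation of a conical end -/
theorem EE_cone (j : κ) {p : ℝ × ℝ} (hp : m.w0 < p.1) :
    P218CN.EE ((m.L j).c : ℂ) (Link.bet (m.L j) p.2 : ℝ) (deriv (Link.bet (m.L j)) p.2 : ℝ)
      (Tt m j 0 0 p) (Tt m j 0 1 p) (Tt m j 0 2 p) (2 * p.1 * Tt m j 1 0 p)
      (4 * p.1 ^ 2 * Tt m j 1 0 p) (4 * p.1 ^ 2 * Tt m j 2 0 p) (2 * p.1 * Tt m j 1 1 p) = 0 := by
  have h1 := (coneF (m.L j)).jet2 (I := Ioi m.w0) (fun _ => pos_of_lt m)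
    ((tow_cone m j).jet2 (fun _ h => h) 0 0) fun q _ => one_add_sq_ne _
  obtain ⟨e1, e2, e3, e4, e5⟩ := P218EF.pd_jet2 h1 (p := p) (by rwa [interior_Ioi])
  have h2 : PPF (1, 0) (0, 1) (fun q : ℝ × ℝ => (coneF (m.L j)).X q.1 q.2 (Tt m j 0 0 q)) p = 0 :=
    PPF_cone m j hp
  have h3 : P218CN.lam (Tt m j 0 0 p) ≠ 0 := one_add_sq_ne _
  rw [PPF, e1, e2, e3, e4, e5, Frame.PP_EE _ _ _ _ _ _ _ (pos_of_lt m hp) h3, coneF_dβ] at h2
  simpa [Frame.sg_ne, rt_ne (pos_of_lt m hp), h3, coneF_c, coneF_β] using h2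

lemma TU_zero (i : ι) (p : ℝ × ℝ) : 1 + TU m i 0 0 p = m.U i p := by simp [TU]

lemma lam_ne {x : ℝ} (hx : 0 ≤ x) (U : ℝ) : 1 + ef 0 x * (U : ℂ) ^ 2 ≠ 0 := by
  rw [← Frame.lam_kap hx, kap, ← ofReal_mul]
  exact one_add_sq_ne _

lemma jet2_model (i : ι) {I : Set ℝ} (hI : ∀ x ∈ I, m.w0 < x) :
    Jet2 I (fun p => (m.U i p : ℂ)) (TU m i 1 0) (TU m i 0 1) (TU m i 2 0) (TU m i 1 1)
      (TU m i 0 2) := by
  simpa only [TU_zero] using jet2_const_add ((tow_cyl m i).jet2 hI 0 0) 1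

/-- the equation of a cylindrical end -/
theorem pE_cyl (i : ι) {p : ℝ × ℝ} (hp : m.w0 < p.1) :
    pE (xf p.1) (xf p.1) (ef 0 p.1) 1 (TU m i 0 0 p) (TU m i 0 1 p) (TU m i 0 2 p)
      (2 * p.1 * TU m i 1 0 p) (2 * p.1 * TU m i 2 0 p) (TU m i 1 1 p) = 0 := by
  have h0 := pos_of_lt m hp
  have h1 := (cylF.rot (mat (m.Q i)) (mat_orth _)).jet2_Z (I := Ioi m.w0) (fun _ => pos_of_lt m)
    (jet2_model m i fun _ h => h) fun q hq => lam_ne (pos_of_lt m hq.1).le _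
  obtain ⟨e1, e2, e3, e4, e5⟩ := P218EF.pd_jet2 h1 (p := p) (by rwa [interior_Ioi])
  have h2 : PPF (1, 0) (0, 1) (fun q : ℝ × ℝ =>
      (cylF.rot (mat (m.Q i)) (mat_orth _)).Z q.1 q.2 (m.U i q)) p = 0 := by
    rw [← PPF_cyl m i hp]
    congr 1
    funext q
    rw [Frame.Z, kap]
    congr 1
    push_cast
    ring
  have h3 := lam_ne h0.le (m.U i p)
  have h4 : ef 0 p.1 ≠ 0 := fun e => by simpa [e] using Af_eq (α := 0) h0 (by simp)
  rw [PPF, e1, e2, e3, e4, e5, (isCyl_cylF.rot _).PP_Z h0 _ h3, ← TU_zero, add_sub_cancel_left,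
    TU_zero] at h2
  simpa [-Frame.rot_sg, Frame.sg_ne, rt_ne h0, h3, h4] using h2

/-- `J` is the normalised jet of the end `i` on `[s, ∞)` -/
structure SJet (i : ι) (s : ℝ) (J : Fin 6 → WA) : Prop where
  lt : m.w0 < s
  e0 : ∀ x θ, s ≤ x → (J 0).ev x θ = TU m i 0 0 (x, θ)
  e1 : ∀ x θ, s ≤ x → (J 1).ev x θ = TU m i 0 1 (x, θ)
  e2 : ∀ x θ, s ≤ x → (J 2).ev x θ = TU m i 0 2 (x, θ)
  e3 : ∀ x θ, s ≤ x → (J 3).ev x θ = 2 * x * TU m i 1 0 (x, θ)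
  e4 : ∀ x θ, s ≤ x → (J 4).ev x θ = 2 * x * TU m i 2 0 (x, θ)
  e5 : ∀ x θ, s ≤ x → (J 5).ev x θ = 2 * x * Complex.sqrt (Af 0 x) * TU m i 1 1 (x, θ)
  clamp : ∀ l x θ, x ≤ s → (J l).ev x θ = (J l).ev s θ
  small : ∀ ε, 0 < ε → ∃ w1, ∀ l, Bd (Ici w1) 1 1 (J l) ε

lemma sqrt_Af_zero {x : ℝ} (hx : 0 ≤ x) : Complex.sqrt (Af 0 x) = (√((2 * x)⁻¹) : ℝ) := by
  have e : Af 0 x = (((2 * x)⁻¹ : ℝ) : ℂ) := by simp [Af]
  rw [e, Complex.sqrt, Real.sqrt_eq_rpow, ofReal_cpow (by positivity)]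
  norm_num

theorem exists_sJet (i : ι) {s : ℝ} (hs : m.w0 < s) : ∃ J, SJet m i s J := by
  have h := tow_cyl m i
  have h1 : ∀ x, s ≤ x → 1 ≤ x := fun x hx => by linarith [m.one_le]
  have n2 : ∀ x : ℝ, s ≤ x → ‖(2 * x : ℂ)‖ = 2 * x := fun x hx => by
    rw [norm_mul, norm_real, Real.norm_of_nonneg (by linarith [h1 x hx]), Complex.norm_two]
  have np : ∀ (x : ℝ) (a : ℕ), s ≤ x → ‖(x : ℂ) ^ a‖ = x ^ a := fun x a hx => by
    rw [norm_pow, norm_real, Real.norm_of_nonneg (by linarith [h1 x hx])]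
  have k0 := fun b => h.exists_WA (K := 1) hs (c := fun _ => 1) continuousOn_const 0 b
    (fun _ _ => by simp) one_pos
  obtain ⟨x0, a0, b0⟩ := k0 0
  obtain ⟨x1, a1, b1⟩ := k0 1
  obtain ⟨x2, a2, b2⟩ := k0 2
  obtain ⟨x3, a3, b3⟩ := h.exists_WA (K := 2) hs (c := fun x => 2 * x) (by fun_prop) 1 0
    (fun x hx => by rw [n2 x hx, np x 1 hx, pow_one]) two_pos
  obtain ⟨x4, a4, b4⟩ := h.exists_WA (K := 2) hs (c := fun x => 2 * x) (by fun_prop) 2 0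
    (fun x hx => by rw [n2 x hx, np x 2 hx]; nlinarith [h1 x hx]) two_pos
  obtain ⟨x5, a5, b5⟩ := h.exists_WA (K := 2) hs (c := fun x => 2 * x * Complex.sqrt (Af 0 x))
    (ContinuousOn.mul (by fun_prop) (P218EF.contOn_sqrt
      (contOn_Af (fun x hx => one_pos.trans_le (h1 x hx)) (by simp))
      fun x hx => re_Af_pos (one_pos.trans_le (h1 x hx)) (by simp))) 1 1
    (fun x hx => by
      have := h1 x hx
      rw [norm_mul, n2 x hx, np x 1 hx, pow_one, sqrt_Af_zero (by linarith), norm_real,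
        Real.norm_of_nonneg (Real.sqrt_nonneg _)]
      exact mul_le_of_le_one_right (by linarith)
        (Real.sqrt_le_one.2 (inv_le_one_of_one_le₀ (by linarith)))) two_pos
  refine ⟨![x0, x1, x2, x3, x4, x5], hs, fun x θ hx => ?_, fun x θ hx => ?_, fun x θ hx => ?_,
    fun x θ hx => ?_, fun x θ hx => ?_, fun x θ hx => ?_, fun l x θ hx => ?_, fun ε hε => ?_⟩
  · simp [a0, max_eq_right hx]
  · simp [a1, max_eq_right hx]
  · simp [a2, max_eq_right hx]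
  · simp [a3, max_eq_right hx]
  · simp [a4, max_eq_right hx]
  · simp [a5, max_eq_right hx]
  · fin_cases l <;> simp [a0, a1, a2, a3, a4, a5, max_eq_left hx]
  · obtain ⟨w0, c0⟩ := b0 ε hε
    obtain ⟨w1, c1⟩ := b1 ε hε
    obtain ⟨w2, c2⟩ := b2 ε hε
    obtain ⟨w3, c3⟩ := b3 ε hε
    obtain ⟨w4, c4⟩ := b4 ε hε
    obtain ⟨w5, c5⟩ := b5 ε hε
    refine ⟨max (max (max w0 w1) (max w2 w3)) (max w4 w5), fun l => ?_⟩
    fin_cases l
    exacts [c0.subset (Ici_subset_Ici.2 (by simp)), c1.subset (Ici_subset_Ici.2 (by simp)),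
      c2.subset (Ici_subset_Ici.2 (by simp)), c3.subset (Ici_subset_Ici.2 (by simp)),
      c4.subset (Ici_subset_Ici.2 (by simp)), c5.subset (Ici_subset_Ici.2 (by simp))]

namespace SJet
variable {m} {i : ι} {s : ℝ} {J : Fin 6 → WA} (h : SJet m i s J)
include h

lemma pos {x : ℝ} (hx : s ≤ x) : 0 < x := pos_of_lt m (h.lt.trans_le hx)

lemma A3 {x : ℝ} (hx : s ≤ x) (θ : ℝ) : Af 0 x * (J 3).ev x θ = TU m i 1 0 (x, θ) := by
  rw [h.e3 x θ hx, Af_zero]; linear_combination TU m i 1 0 (x, θ) * xf_eq (h.pos hx)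

lemma A4 {x : ℝ} (hx : s ≤ x) (θ : ℝ) : Af 0 x * (J 4).ev x θ = TU m i 2 0 (x, θ) := by
  rw [h.e4 x θ hx, Af_zero]; linear_combination TU m i 2 0 (x, θ) * xf_eq (h.pos hx)

lemma A5 {x : ℝ} (hx : s ≤ x) (θ : ℝ) :
    Complex.sqrt (Af 0 x) * (J 5).ev x θ = TU m i 1 1 (x, θ) := by
  have e := csqrt_sq (Af 0 x)
  nth_rw 2 [Af_zero] at e
  rw [h.e5 x θ hx]
  linear_combination TU m i 1 1 (x, θ) * xf_eq (h.pos hx) + 2 * x * TU m i 1 1 (x, θ) * e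

section
variable {p : ℝ × ℝ} (hp : s ≤ p.1)
include hp

lemma U0_eq : U0 0 J p = m.U i p := by rw [U0, prof_zero, h.e0 _ _ hp, TU_zero, one_mul]
lemma U1_eq : U1 0 J p = TU m i 1 0 p := by simp [U1, prof_zero, h.A3 hp, ← Af_zero]
lemma U2_eq : U2 0 J p = TU m i 0 1 p := by simp [U2, prof_zero, h.e1 _ _ hp]
lemma U11_eq : U11 0 J p = TU m i 2 0 p := by simp [U11, prof_zero, h.A4 hp, ← Af_zero]
lemma U12_eq : U12 0 J p = TU m i 1 1 p := by simp [U12, prof_zero, h.A5 hp, ← Af_zero]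
lemma U22_eq : U22 0 J p = TU m i 0 2 p := by simp [U22, prof_zero, h.e2 _ _ hp]

end

theorem jet {a : ℝ} (ha : s ≤ a) (b : ℝ) : Jet a b (Af 0) J := by
  have h0 : ∀ x ∈ Icc a b, s ≤ x := fun x hx => ha.trans hx.1
  refine jet_of_jet2 (contOn_Af (fun x hx => h.pos (h0 x hx)) (by simp))
    (fun x hx e => by simpa [e] using Af_eq (α := 0) (h.pos (h0 x hx)) (by simp))
    (jet2_congr ((tow_cyl m i).jet2 (fun x hx => h.lt.trans_le (h0 x hx)) 0 0)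
      (fun x hx θ => h.e0 x θ (h0 x hx)) (fun x hx θ => h.A3 (h0 x hx) θ)
      (fun x hx θ => h.e1 x θ (h0 x hx)) (fun x hx θ => h.A4 (h0 x hx) θ)
      (fun x hx θ => h.A5 (h0 x hx) θ) fun x hx θ => h.e2 x θ (h0 x hx))

theorem eq {a : ℝ} (ha : s ≤ a) (b : ℝ) : WEq (Icc a b) (EE a b 0 J) 0 := by
  refine wEq_iff.2 fun x hx θ => ?_
  have hp : s ≤ (x, θ).1 := ha.trans hx.1
  have k := pE_U (α := 0) (p := (x, θ)) (h.pos ha) (b := b) (by simp) J hx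
  rw [h.U0_eq hp, h.U1_eq hp, h.U2_eq hp, h.U11_eq hp, h.U12_eq hp, h.U22_eq hp, ← TU_zero,
    add_sub_cancel_left, pE_cyl m i (h.lt.trans_le hp)] at k
  simpa [ev_zero] using k.symm

/-- the end of the model solves the end problem on every interval -/
theorem sol {a b : ℝ} (ha : s ≤ a) (hab : a ≤ b) : Sol a b 0 J 0 (J 0 - J 2) (BB b 0 J) where
  jet := h.jet ha b
  eq := h.eq ha b
  dir k := by
    rw [co_sub, BoundedContinuousFunction.sub_apply, (h.jet ha b).t2' k (pt_mem hab _ k)]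
    ring
  bc _ _ _ := rfl

theorem real (l : Fin 6) : cj (J l) = J l := by
  have key : ∀ x θ, s ≤ x → starRingEnd ℂ ((J l).ev x θ) = (J l).ev x θ := fun x θ hx => by
    fin_cases l
    · simp [h.e0 x θ hx, TU]
    · simp [h.e1 x θ hx, TU]
    · simp [h.e2 x θ hx, TU]
    · simp [h.e3 x θ hx, TU, map_ofNat]
    · simp [h.e4 x θ hx, TU, map_ofNat]
    · simp only [Fin.reduceFinMk, h.e5 x θ hx, TU, sqrt_Af_zero (h.pos hx).le, map_mul,
        conj_ofReal, map_ofNat]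
  refine ev_inj fun x θ => ?_
  rw [ev_cj]
  rcases le_total s x with hx | hx
  · exact key x θ hx
  · rw [h.clamp l x θ hx]; exact key s θ le_rfl

/-- the clamped jets are small in norm -/
theorem norm_le {ε : ℝ} (hε : 0 < ε) :
    ∃ w1, ∀ a b, w1 ≤ a → a ≤ b → ∀ l, ‖comp (cl a b) (J l)‖ ≤ ε := by
  obtain ⟨w1, h1⟩ := h.small ε hε
  exact ⟨w1, fun a b ha hab l => Bd.norm_le
    ((h1 l).comp (S' := univ) (cl a b) fun x _ => ha.trans (cl_mem hab x).1)⟩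

end SJet

end Vale.Agent.P218XI
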