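import Vale.Agent.P218EN.Poly

/-! The collar source on a cylindrical end: algebra and smallness. -/

noncomputable section

namespace Vale.Agent.P218XI
open Metric Filter Topology Set Vale.Agent.P218EN

section ring
variable {R : Type*} [CommRing R]

/-- first order jet `(η, t, p)` of `S + χ (J - S) + d`, where `k = 2 w χ_w` -/
def gu (χ k : R) (S J d : Fin 6 → R) : R × R × R :=
  (S 0 + χ * (J 0 - S 0) + d 0, S 1 + χ * (J 1 - S 1) + d 1,
    S 3 + χ * (J 3 - S 3) + k * (J 0 - S 0) + d 3)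

/-- the principal part with the coefficients frozen at `u` -/
def aU (ε r : R) (u : R × R × R) (J : Fin 6 → R) : R :=
  pa11 ε u.1 u.2.1 * J 4 + pa12 ε r u.1 u.2.1 u.2.2 * J 5 + pa22 (r ^ 2) ε u.1 u.2.2 * J 2

/-- the first order part -/
def bU (ε r : R) (J : Fin 6 → R) : R := pb (r ^ 2) (r ^ 2) ε (J 0) (J 1) (J 3)

/-- the shrinker operator on absolute jets -/
def eU (ε r : R) (J : Fin 6 → R) : R :=
  pE (r ^ 2) (r ^ 2) ε r (J 0) (J 1) (J 2) (J 3) (J 4) (J 5)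

/-- the equation on the end -/
def nU (ε r χ k ρ : R) (S J d : Fin 6 → R) : R :=
  aU ε r (gu χ k S J d) (J + d) + bU ε r J + ρ * (bU ε r (J + d) - bU ε r J)

/-- the collar source -/
def cU (ε r χ k ρ : R) (S J d : Fin 6 → R) : R := eU ε r J - nU ε r χ k ρ S J d

lemma cU_self (ε r χ k ρ : R) (S : Fin 6 → R) : cU ε r χ k ρ S S 0 = 0 := by
  simp [cU, eU, nU, aU, bU, gu, pE]

lemma cU_one (ε r ρ : R) (S J : Fin 6 → R) : cU ε r 1 0 ρ S J 0 = 0 := by
  simp [cU, eU, nU, aU, bU, gu, pE]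

variable {R' F : Type*} [CommRing R'] [FunLike F R R'] [RingHomClass F R R'] (φ : F)

lemma map_cU (ε r χ k ρ : R) (S J d : Fin 6 → R) :
    φ (cU ε r χ k ρ S J d) = cU (φ ε) (φ r) (φ χ) (φ k) (φ ρ)
      (fun i => φ (S i)) (fun i => φ (J i)) (fun i => φ (d i)) := by
  simp only [cU, eU, nU, aU, bU, gu, pE, pa11, pa12, pa22, pb, pb0, map_add, map_sub, map_mul,
    map_pow, map_neg, map_one, map_ofNat, Pi.add_apply]

/-- the coefficients in the variables `ε, η, t, y = r (p - 1 - η)` -/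
def av (z : R × R × R × R) : Fin 3 → R :=
  ![pa11 z.1 z.2.1 z.2.2.1,
    -(2 * (1 + z.1 * (1 + z.2.1) ^ 2) ^ 2 * z.2.2.2 * z.2.2.1 * (1 + z.2.1)),
    (1 + z.1 * (1 + z.2.1) ^ 2) ^ 2 * ((1 + z.1 * (1 + z.2.1) ^ 2) ^ 2 + z.2.2.2 ^ 2) * (1 + z.2.1)]

/-- the first order part in the variables `r, ε, η, t, p` -/
def bv (z : R × R × R × R × R) : R := pb (z.1 ^ 2) (z.1 ^ 2) z.2.1 z.2.2.1 z.2.2.2.1 z.2.2.2.2

/-- the variables of `av` -/
def zv (ε r : R) (u : R × R × R) : R × R × R × R := (ε, u.1, u.2.1, r * u.2.2 - r - r * u.1)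

lemma aU_eq (ε r : R) (u : R × R × R) (J : Fin 6 → R) :
    aU ε r u J = av (zv ε r u) 0 * J 4 + av (zv ε r u) 1 * J 5 + av (zv ε r u) 2 * J 2 := by
  simp only [aU, av, zv, pa12, pa22, Matrix.cons_val]
  ring

end ring

lemma exists_lip {E G : Type*} [NormedAddCommGroup E] [NormedSpace ℂ E] [NormedAddCommGroup G]
    [NormedSpace ℂ G] {f : E → G} (hf : ContDiff ℂ 1 f) : ∃ L r : ℝ, 0 < r ∧ 1 ≤ L ∧
      ∀ u v, ‖u‖ ≤ r → ‖v‖ ≤ r → ‖f u‖ ≤ L ∧ ‖f u - f v‖ ≤ L * ‖u - v‖ := by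
  obtain ⟨K, t, ht, hK⟩ := hf.contDiffAt.exists_lipschitzOnWith (x := 0)
  obtain ⟨r, hr, hs⟩ := nhds_basis_closedBall.mem_iff.1 ht
  have key : ∀ u v, ‖u‖ ≤ r → ‖v‖ ≤ r → ‖f u - f v‖ ≤ K * ‖u - v‖ := fun u v hu hv => by
    simpa [dist_eq_norm] using hK.dist_le_mul u (hs (by simpa using hu)) v (hs (by simpa using hv))
  have h0 : 0 ≤ ‖f 0‖ + K * r := by positivity
  refine ⟨‖f 0‖ + K * r + K + 1, r, hr, by linarith [K.coe_nonneg], fun u v hu hv => ⟨?_, ?_⟩⟩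
  · have h1 := key u 0 hu (by simpa using hr.le)
    have h3 := norm_le_insert' (f u) (f 0)
    rw [sub_zero] at h1
    have h4 : (K : ℝ) * ‖u‖ ≤ K * r := by gcongr
    linarith [K.coe_nonneg]
  · refine (key u v hu hv).trans ?_
    gcongr
    linarith

section normed
variable {R : Type*} [NormedCommRing R] [NormedAlgebra ℂ R]

lemma contDiff_av : ContDiff ℂ 1 (av : R × R × R × R → Fin 3 → R) := by
  refine contDiff_pi.2 fun i => ?_
  fin_cases i <;> simp only [av, pa11] <;> simp <;> fun_prop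

lemma contDiff_bv : ContDiff ℂ 1 (bv : R × R × R × R × R → R) := by
  unfold bv pb pb0
  fun_prop

lemma differentiable_cU {E : Type*} [NormedAddCommGroup E] [NormedSpace ℂ E]
    (ε r χ k ρ : R) (S : Fin 6 → R) {J d : E → Fin 6 → R} (hJ : Differentiable ℂ J)
    (hd : Differentiable ℂ d) : Differentiable ℂ fun z => cU ε r χ k ρ S (J z) (d z) := by
  have h1 := differentiable_pi.1 hJ
  have h2 := differentiable_pi.1 hd
  simp only [cU, eU, nU, aU, bU, gu, pE, pa11, pa12, pa22, pb, pb0, Pi.add_apply]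
  fun_prop

theorem exists_est_cU : ∃ L e0 : ℝ, 0 < L ∧ 0 < e0 ∧ ∀ (δ m η : ℝ) (ε r χ k ρ : R)
    (S J d : Fin 6 → R), δ ≤ e0 → m ≤ e0 → η ≤ e0 → ‖ε‖ ≤ e0 → ‖r‖ ≤ e0 → ‖χ‖ ≤ 1 → ‖ρ‖ ≤ 1 →
    ‖S‖ ≤ δ → ‖J‖ ≤ δ → ‖d‖ ≤ η → ‖r‖ * ‖k‖ * δ ≤ m →
    ‖cU ε r χ k ρ S J d‖ ≤ L * ((δ + m + η) * δ + η) := by
  obtain ⟨L1, r1, hr1, hL1, h1⟩ := exists_lip (contDiff_av (R := R))
  obtain ⟨L2, r2, hr2, hL2, h2⟩ := exists_lip (contDiff_bv (R := R))
  refine ⟨40 * (L1 + L2), min 1 (min (r1 / 20) (r2 / 2)), by positivity, by positivity,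
    fun δ m η ε r χ k ρ S J d hδ hm hη hε hr hχ hρ hS hJ hd hk => ?_⟩
  simp only [le_min_iff] at hδ hm hη hε hr
  have δ0 : 0 ≤ δ := (norm_nonneg _).trans hS
  have η0 : 0 ≤ η := (norm_nonneg _).trans hd
  have m0 : 0 ≤ m := le_trans (by positivity) hk
  have Si : ∀ i, ‖S i‖ ≤ δ := fun i => (norm_le_pi_norm S i).trans hS
  have Ji : ∀ i, ‖J i‖ ≤ δ := fun i => (norm_le_pi_norm J i).trans hJ
  have di : ∀ i, ‖d i‖ ≤ η := fun i => (norm_le_pi_norm d i).trans hd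
  have JS : ∀ i, ‖J i - S i‖ ≤ 2 * δ := fun i => by linarith [norm_sub_le_of_le (Ji i) (Si i)]
  have rm : ∀ {x : R} {t : ℝ}, ‖x‖ ≤ t → ‖r * x‖ ≤ t := fun hx => by
    simpa using norm_mul_le_of_le hr.1 hx
  have g : ∀ i, ‖S i + χ * (J i - S i) + d i - J i‖ ≤ 4 * δ + η := fun i => by
    rw [show S i + χ * (J i - S i) + d i - J i = χ * (J i - S i) - (J i - S i) + d i by ring]
    linarith [norm_add_le_of_le (norm_sub_le_of_le (norm_mul_le_of_le hχ (JS i)) (JS i)) (di i)]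
  set z := zv ε r (gu χ k S J d)
  set z0 := zv ε r (J 0, J 1, J 3)
  have n0 : ‖z0‖ ≤ 3 * (r1 / 20) := by
    simp only [z0, zv, Prod.norm_def, max_le_iff]
    exact ⟨by linarith, by linarith [Ji 0], by linarith [Ji 1],
      by linarith [norm_sub_le_of_le (norm_sub_le_of_le (rm (Ji 3)) hr.2.1) (rm (Ji 0))]⟩
  have n1' : ‖z - z0‖ ≤ 8 * δ + 2 * m + 2 * η := by
    simp only [z, z0, zv, gu, Prod.norm_def, max_le_iff, Prod.fst_sub, Prod.snd_sub, sub_self,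
      norm_zero]
    refine ⟨by positivity, by linarith [g 0], by linarith [g 1], ?_⟩
    have e : r * (S 3 + χ * (J 3 - S 3) + k * (J 0 - S 0) + d 3) - r -
        r * (S 0 + χ * (J 0 - S 0) + d 0) - (r * J 3 - r - r * J 0) =
        r * (S 3 + χ * (J 3 - S 3) + d 3 - J 3) - r * (S 0 + χ * (J 0 - S 0) + d 0 - J 0) +
          r * k * (J 0 - S 0) := by ring
    rw [e]
    linarith [norm_add_le_of_le (norm_sub_le_of_le (rm (g 3)) (rm (g 0)))
      (norm_mul_le_of_le (norm_mul_le r k) (JS 0))]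
  have n1 : ‖z - z0‖ ≤ 8 * (δ + m + η) := by linarith
  have n2 : ‖z‖ ≤ r1 := by linarith [norm_le_insert' z z0]
  have a := h1 z z0 n2 (by linarith)
  have a1 : ∀ i, ‖av z i‖ ≤ L1 := fun i => (norm_le_pi_norm _ i).trans a.1
  have a2 : ∀ i, ‖av z i - av z0 i‖ ≤ L1 * (8 * (δ + m + η)) := fun i =>
    (norm_le_pi_norm (av z - av z0) i).trans (a.2.trans (by gcongr))
  have b := (h2 (r, ε, J 0 + d 0, J 1 + d 1, J 3 + d 3) (r, ε, J 0, J 1, J 3)
    (by
      simp only [Prod.norm_def, max_le_iff]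
      exact ⟨by linarith, by linarith, by linarith [norm_add_le_of_le (Ji 0) (di 0)],
        by linarith [norm_add_le_of_le (Ji 1) (di 1)],
        by linarith [norm_add_le_of_le (Ji 3) (di 3)]⟩)
    (by
      simp only [Prod.norm_def, max_le_iff]
      exact ⟨by linarith, by linarith, by linarith [Ji 0], by linarith [Ji 1],
        by linarith [Ji 3]⟩)).2.trans (mul_le_mul_of_nonneg_left (show _ ≤ η by
      simp only [Prod.norm_def, max_le_iff, Prod.fst_sub, Prod.snd_sub, sub_self, norm_zero,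
        add_sub_cancel_left]
      exact ⟨η0, η0, di 0, di 1, di 3⟩) (zero_le_one.trans hL2))
  have e : cU ε r χ k ρ S J d = -(((av z 0 - av z0 0) * J 4 + (av z 1 - av z0 1) * J 5 +
      (av z 2 - av z0 2) * J 2) + (av z 0 * d 4 + av z 1 * d 5 + av z 2 * d 2) +
      ρ * (bv (r, ε, J 0 + d 0, J 1 + d 1, J 3 + d 3) - bv (r, ε, J 0, J 1, J 3))) := by
    have e0 : eU ε r J = aU ε r (J 0, J 1, J 3) J + bU ε r J := rfl
    rw [cU, nU, e0, aU_eq, aU_eq]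
    simp only [Pi.add_apply, bU, bv]
    ring
  rw [e, norm_neg]
  refine (norm_add_le_of_le (norm_add_le_of_le
    (norm_add_le_of_le (norm_add_le_of_le (norm_mul_le_of_le (a2 0) (Ji 4))
      (norm_mul_le_of_le (a2 1) (Ji 5))) (norm_mul_le_of_le (a2 2) (Ji 2)))
    (norm_add_le_of_le (norm_add_le_of_le (norm_mul_le_of_le (a1 0) (di 4))
      (norm_mul_le_of_le (a1 1) (di 5))) (norm_mul_le_of_le (a1 2) (di 2))))
    (norm_mul_le_of_le hρ b)).trans ?_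
  have t0 : 0 ≤ (δ + m + η) * δ := by positivity
  nlinarith [mul_nonneg (by linarith : 0 ≤ L1) t0, mul_nonneg (by linarith : 0 ≤ L2) t0,
    mul_nonneg (by linarith : 0 ≤ L1) η0, mul_nonneg (by linarith : 0 ≤ L2) η0]

end normed

end Vale.Agent.P218XI
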