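import Vale.Agent.P218XI.S
import Vale.Agent.P218EN.Cyl

/-! Polynomial decay of the jets of a cylindrical end. -/

open Complex Filter Set

noncomputable section

namespace Vale.Agent.P218XI

open Vale.Agent.P218GA Vale.Agent.P218EN Vale.Agent.P218EN.WA Vale.Agent.P218EN.Ex

lemma Af0 (x : ℝ) : Af 0 x = (((2 * x)⁻¹ : ℝ) : ℂ) := by simp [Af]

lemma re_Af0 (x : ℝ) : (Af 0 x).re = (2 * x)⁻¹ := by rw [Af0, ofReal_re]

lemma norm_Af0 {x : ℝ} (hx : 0 < x) : ‖Af 0 x‖ = (2 * x)⁻¹ := by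
  rw [Af0, norm_real, Real.norm_of_nonneg (by positivity)]

lemma dl0 {x : ℝ} (hx : 0 < x) : dl (Af 0) x = 1 := by
  rw [dl, re_Af0, norm_Af0 hx, div_self (by positivity)]

lemma Af'0 (x : ℝ) : Af' 0 x = -(2 * Af 0 x ^ 2) := by rw [Af', ← Af_zero]; ring

lemma norm_ef0 {x : ℝ} (hx : 0 < x) : ‖ef 0 x‖ ≤ (2 * x)⁻¹ := by
  have e : ef 0 x = (((8 * x)⁻¹ : ℝ) : ℂ) := by simp [ef]
  rw [e, norm_real, Real.norm_of_nonneg (by positivity)]
  exact inv_anti₀ (by positivity) (by linarith)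

lemma coef0 {a b ε : ℝ} (ha : 0 < a) (hab : a ≤ b) (h1 : ε ≤ 1 / 1000) (h2 : a⁻¹ ≤ ε) :
    Coef a b (Af 0) (Af' 0) ε := by
  have h0 : ∀ x ∈ Icc a b, 0 < x := fun x hx => ha.trans_le hx.1
  have h3 : ∀ x ∈ Icc a b, 2 * (2 * x)⁻¹ ≤ ε := fun x hx => by
    rw [mul_inv, ← mul_assoc, mul_inv_cancel₀ two_ne_zero, one_mul]
    exact (inv_anti₀ ha hx.1).trans h2
  refine ⟨hab, h1, fun x hx => (hasDerivAt_Af (h0 x hx) (by simp)).hasDerivWithinAt, ?_,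
    fun x hx => ?_, fun x hx => ?_, fun x hx => ?_⟩
  · rw [show Af' 0 = fun x => -(2 * Af 0 x ^ 2) from funext Af'0]
    exact (continuousOn_const.mul ((contOn_Af h0 (by simp)).pow 2)).neg
  · have := h0 x hx
    rw [re_Af0]; positivity
  · have := h0 x hx
    have : 0 < (2 * x)⁻¹ := by positivity
    rw [re_Af0, norm_Af0 (h0 x hx)]; nlinarith [h3 x hx]
  · have := h0 x hx
    have : 0 < (2 * x)⁻¹ := by positivity
    rw [Af'0, norm_neg, norm_mul, norm_pow, Complex.norm_two, re_Af0, norm_Af0 (h0 x hx)]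
    nlinarith [h3 x hx]

/-- the weight `w ^ (-7/8)` -/
def gw (x : ℝ) : ℝ := x ^ (-(7 / 8) : ℝ)

lemma gw_pos {x : ℝ} (hx : 0 < x) : 0 < gw x := Real.rpow_pos_of_pos hx _

lemma gw_anti {x y : ℝ} (hx : 0 < x) (h : x ≤ y) : gw y ≤ gw x :=
  Real.rpow_le_rpow_of_nonpos hx h (by norm_num)

lemma inv_le_gw {x : ℝ} (hx : 1 ≤ x) : x⁻¹ ≤ gw x := by
  rw [← Real.rpow_neg_one]
  exact Real.rpow_le_rpow_of_exponent_le hx (by norm_num)

lemma hasDerivAt_gw {x : ℝ} (hx : 0 < x) : HasDerivAt gw (-(7 / 4 * (2 * x)⁻¹ * gw x)) x := by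
  refine (Real.hasDerivAt_rpow_const (Or.inl hx.ne')).congr_deriv ?_
  rw [Real.rpow_sub_one hx.ne', gw]
  field_simp
  ring

lemma wts0 {a b κ : ℝ} (ha : 0 < a) (hκ : 0 ≤ κ) :
    Wts a b (-2) (Af 0) (fun x => gw x + κ) fun x => gw x + κ := by
  have h0 : ∀ x ∈ Icc a b, 0 < x := fun x hx => ha.trans_le hx.1
  have hp : ∀ x ∈ Icc a b, 0 < gw x + κ := fun x hx => by linarith [gw_pos (h0 x hx)]
  have hd : ∀ x ∈ Icc a b, HasDerivWithinAt (fun x => gw x + κ) (-(7 / 4 * (2 * x)⁻¹ * gw x))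
    (Icc a b) x := fun x hx => ((hasDerivAt_gw (h0 x hx)).add_const κ).hasDerivWithinAt
  have f : ∀ x ∈ Icc a b, 0 ≤ (2 * x)⁻¹ * gw x ∧ 0 ≤ (2 * x)⁻¹ * κ := fun x hx => by
    have := h0 x hx
    have := gw_pos this
    constructor <;> positivity
  refine ⟨⟨_, hp, hd, fun x hx => ?_, fun x hx => ?_⟩, Or.inl ⟨rfl, _, hp, hd, fun x hx => ?_⟩⟩ <;>
    (try rw [norm_Af0 (h0 x hx)]) <;> rw [re_Af0] <;> nlinarith [f x hx]

lemma kc_vN {a b ε : ℝ} {d σ ω : ℝ → ℝ} {J : Fin 6 → WA} (ha : 1 ≤ a)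
    (hJ : ∀ i, Bd (Icc a b) σ ω (J i) 1) (hA : ∀ x ∈ Icc a b, (2 * x)⁻¹ ≤ ε * σ x) (i : Fin 10) :
    Kc (Icc a b) ε d σ ω (gN i) (vN a b 0 J i) 1 := by
  have h0 : ∀ x ∈ Icc a b, 0 < x := fun x hx => one_pos.trans_le (ha.trans hx.1)
  have cA := contOn_Af (α := 0) h0 (by simp)
  fin_cases i
  exacts [hJ 0, hJ 1, hJ 2, hJ 3, hJ 4, hJ 5,
    Bd.sc zero_le_one fun x hx => by
      rw [mkB_of_mem cA hx, norm_Af0 (h0 x hx), one_mul]; exact hA x hx,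
    Bd.sc zero_le_one fun x hx => by
      rw [mkB_of_mem (contOn_xf h0) hx, ← Af_zero, norm_Af0 (h0 x hx), one_mul]; exact hA x hx,
    Bd.sc zero_le_one fun x hx => by
      rw [mkB_of_mem (contOn_ef h0) hx, one_mul]; exact (norm_ef0 (h0 x hx)).trans (hA x hx),
    Bd.sc zero_le_one fun x hx => by
      rw [mkB_of_mem (P218EF.contOn_sqrt cA fun x hx => re_Af_pos (h0 x hx) (by simp)) hx,
        sqrt_Af_zero (h0 x hx).le, norm_real, Real.norm_of_nonneg (Real.sqrt_nonneg _), one_mul]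
      exact Real.sqrt_le_one.2 (inv_le_one_of_one_le₀ (by linarith [hx.1]))]

/-- the nonlinear part at the cylinder -/
lemma bd_NN_zero {a b : ℝ} (ha : 1 ≤ a) :
    Bd (Icc a b) (fun x => (2 * x)⁻¹) (fun x => (2 * x)⁻¹) (NN a b 0 0) exN.bd := by
  have f : ∀ x ∈ Icc a b, 0 ≤ (2 * x)⁻¹ ∧ (2 * x)⁻¹ ≤ 1 := fun x hx =>
    ⟨inv_nonneg.2 (by linarith [hx.1]), inv_le_one_of_one_le₀ (by linarith [hx.1])⟩
  have H : WSys (Icc a b) 1 1 (fun x => (2 * x)⁻¹) (fun x => (2 * x)⁻¹) (fun x => (2 * x)⁻¹)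
      fun x => (2 * x)⁻¹ := by
    refine ⟨zero_le_one, le_rfl, ?_, ?_, ?_, ?_, ?_, ?_, ?_, ?_, ?_, ?_⟩ <;> intro x hx <;>
      (try simp only [Pi.one_apply]) <;> nlinarith [f x hx]
  have := H.ev (kc_vN (J := 0) ha (fun _ => (Bd.zero _ _ _).mono zero_le_one)
    fun x _ => (one_mul _).ge) exN
  rw [gr_exN] at this
  exact Bd.weaken' this (fun x _ => by simp) fun x _ => by simp

/-- the nonlinear part is a contraction -/
lemma bd_NN_sub {a b ε B : ℝ} {G : ℝ → ℝ} {J : Fin 6 → WA} (ha : 1 ≤ a) (e0 : 0 ≤ ε) (e1 : ε ≤ 1)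
    (hA : a⁻¹ ≤ ε * ε) (hG : ∀ x ∈ Icc a b, 0 ≤ G x) (hJ : ∀ i, Bd (Icc a b) 1 1 (J i) ε)
    (hB : ∀ i, Bd (Icc a b) G G (J i) B) :
    Bd (Icc a b) G G (NN a b 0 J - NN a b 0 0) (ε * (exN.bd' * B)) := by
  have W : ∀ G : ℝ → ℝ, (∀ x ∈ Icc a b, 0 ≤ G x) →
      WSys (Icc a b) ε 1 (fun _ => ε) (fun _ => ε) G G := fun G hG =>
    ⟨e0, e1, fun _ _ => zero_le_one, fun _ _ => le_rfl, fun _ _ => e0, fun _ _ => e0, hG, hG,
      fun _ _ => by simp, fun _ _ => by simp, fun _ _ => le_rfl, fun _ _ => by simp⟩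
  have hA' : ∀ x ∈ Icc a b, (2 * x)⁻¹ ≤ ε * ε := fun x hx =>
    (inv_anti₀ (by linarith) (by linarith [hx.1])).trans hA
  have hJ' : ∀ i, Bd (Icc a b) (fun _ => ε) (fun _ => ε) (J i) 1 := fun i => by
    obtain ⟨c, c0, c1, c2, c3⟩ := hJ i
    rcases e0.eq_or_lt with rfl | e0
    · have := inv_pos.2 (one_pos.trans_le ha)
      linarith
    · have := (hJ i).weaken (t := ε⁻¹) (a' := fun _ => ε) (b' := fun _ => ε) (by positivity)
        (fun _ _ => by simp [e0.ne']) fun _ _ => by simp [e0.ne']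
      rwa [inv_mul_cancel₀ e0.ne'] at this
  have := (W _ fun _ _ => e0).dv (W G hG) (kc_vN ha hJ' hA')
    (kc_vN (J := 0) ha (fun _ => (Bd.zero _ _ _).mono zero_le_one) hA')
    (Z := vN a b 0 J - vN a b 0 0) (B := B) (fun i => ?_) exN
  · rw [← ev_sub_ev, gr_exN] at this
    exact Bd.weaken this e0 (fun x _ => le_rfl) fun x _ => by simp
  · have z : ∀ (j : ℕ) (x : WA), Mc (Icc a b) ε 1 G G j (x - x) B := fun j x => by
      rw [sub_self]; exact (Kc.zero _).mono (hB 0).nonneg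
    have y : ∀ j, Bd (Icc a b) G G (J j - 0) B := fun j => by rw [sub_zero]; exact hB j
    fin_cases i
    exacts [y 0, y 1, y 2, y 3, y 4, y 5, z _ _, z _ _, z _ _, z _ _]

lemma bdX_of {a b s B B' : ℝ} {G : ℝ → ℝ} {ξ : WA} (ha : 0 ≤ G a) (hb : 0 ≤ G b)
    (h : Bd {a} G G ξ B) (h' : Bd {b} G G ξ B') :
    BdX (pt a b s) (fun k => wt G G k (pt a b s k)) ξ (B + B') := by
  obtain ⟨c, h0, h1, h2, h3⟩ := h
  obtain ⟨c', h0', h1', h2', h3'⟩ := h'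
  have e : ∀ k, wt G G k = G := fun k => by unfold wt; split_ifs <;> rfl
  refine ⟨fun k => c k + c' k, fun k => add_nonneg (h0 k) (h0' k), h1.add h1', ?_, fun k => ?_⟩
  · rw [h1.tsum_add h1']; exact add_le_add h2 h2'
  · have a1 := h3 k a rfl
    have a2 := h3' k b rfl
    simp only [e, pt] at a1 a2 ⊢
    split_ifs
    · nlinarith [mul_nonneg (h0' k) ha]
    · nlinarith [mul_nonneg (h0 k) hb]

/-- decay of small solutions -/
theorem decay_of {s : ℝ} {J : Fin 6 → WA} (jet : ∀ a b, s ≤ a → Jet a b (Af 0) J)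
    (eq : ∀ a b, s ≤ a → WEq (Icc a b) (EE a b 0 J) 0)
    (small : ∀ ε, 0 < ε → ∃ w1, ∀ l, Bd (Ici w1) 1 1 (J l) ε) :
    ∃ a K, s ≤ a ∧ 1 ≤ a ∧ ∀ b l, Bd (Icc a b) gw gw (J l) K := by
  have n0 : (0 : ℝ) ≤ exN.bd' := Nat.cast_nonneg _
  have hN := fun a b ε B G => @bd_NN_sub a b ε B G J
  generalize (exN.bd' : ℝ) = N at n0 hN
  obtain ⟨ε, e0, e1, e2⟩ : ∃ ε : ℝ, 0 < ε ∧ 480 * 3000000 * ε ≤ 1 ∧
      40 * 3000000 * (ε * N) ≤ 1 := by
    refine ⟨(480 * 3000000 * (N + 1))⁻¹, by positivity, ?_, ?_⟩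
    · rw [← div_eq_mul_inv, div_le_one (by positivity)]; nlinarith
    · rw [mul_comm _ N, ← mul_assoc, ← div_eq_mul_inv, div_le_one (by positivity)]; nlinarith
  obtain ⟨w1, h1⟩ := small ε e0
  obtain ⟨a, as, a1, aw, ae⟩ : ∃ a, s ≤ a ∧ 1 ≤ a ∧ w1 ≤ a ∧ (ε * ε)⁻¹ ≤ a :=
    ⟨max (max s 1) (max w1 (ε * ε)⁻¹), by simp, by simp, by simp, by simp⟩
  have a0 : 0 < a := one_pos.trans_le a1
  have ae' : a⁻¹ ≤ ε * ε := inv_le_of_inv_le₀ (by positivity) ae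
  have ga := gw_pos a0
  refine ⟨a, 2 * (2 * (20 * 3000000 * (exN.bd + ((gw a)⁻¹ * (ε + ε) + (1 + 1)) + (1 + 1) +
    (1 + 1)))), as, a1, fun b l => ?_⟩
  obtain ⟨κ, κ0, hκ⟩ : ∃ κ, 0 < κ ∧ ∀ x ∈ Icc a b, κ ≤ gw x :=
    ⟨gw (max a b), gw_pos (a0.trans_le (le_max_left _ _)), fun x hx =>
      gw_anti (a0.trans_le hx.1) (hx.2.trans (le_max_right _ _))⟩
  obtain ⟨w2, h2⟩ := small κ κ0
  obtain ⟨c, ac, bc, wc⟩ : ∃ c, a ≤ c ∧ b ≤ c ∧ w2 ≤ c :=
    ⟨max a (max b w2), by simp, by simp, by simp⟩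
  have H := coef0 a0 ac (by linarith : ε ≤ 1 / 1000) (by nlinarith)
  have O := H.gb (wts0 a0 κ0.le)
  have h0 : ∀ x ∈ Icc a c, 0 < x := fun x hx => a0.trans_le hx.1
  have gc := gw_pos (a0.trans_le ac)
  have T : ∀ l, Bd {c} (fun x => gw x + κ) (fun x => gw x + κ) (J l) 1 := fun l => by
    have := ((h2 l).subset (singleton_subset_iff.2 wc)).weaken (t := κ⁻¹)
      (a' := fun x => gw x + κ) (b' := fun x => gw x + κ) (by positivity)
      (by simpa [mul_add, κ0.ne'] using by positivity)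
      (by simpa [mul_add, κ0.ne'] using by positivity)
    rwa [inv_mul_cancel₀ κ0.ne'] at this
  have key := absorb ac O.pos O.cont (J := J)
    (c := 20 * 3000000 * (exN.bd + ((gw a)⁻¹ * (ε + ε) + (1 + 1)) + (1 + 1) + (1 + 1)))
    (fun B hB i => ?_) l
  · refine (key.subset (Icc_subset_Icc_right bc)).weaken zero_le_two ?_ ?_ <;> intro x hx <;>
      linarith [hκ x hx]
  have b1 : Bd (Icc a c) (fun x => gw x + κ) (fun x => gw x + κ) (NN a c 0 0) exN.bd := by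
    have : ∀ x ∈ Icc a c, (2 * x)⁻¹ ≤ gw x + κ := fun x hx => by
      have := inv_anti₀ (h0 x hx) (by linarith [h0 x hx] : x ≤ 2 * x)
      linarith [inv_le_gw (a1.trans hx.1)]
    exact (bd_NN_zero a1).weaken' this this
  have b2 := hN a c ε B _ a1 e0.le (by linarith) ae' (fun x hx => (O.pos x hx).1.le)
    (fun i => (h1 i).subset fun x hx => aw.trans hx.1) hB
  have b3 := (b1.add b2).neg
  rw [add_sub_cancel] at b3
  have b4 := ((((h1 0).sub (h1 2)).subset (singleton_subset_iff.2 aw)).weaken (t := (gw a)⁻¹)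
      (a' := fun x => gw x + κ) (b' := fun x => gw x + κ) (by positivity)
      (by simpa [mul_add, ga.ne'] using by positivity)
      (by simpa [mul_add, ga.ne'] using by positivity))
  have b5 : ‖Complex.sqrt (Af 0 c)‖ * 1 ≤ 1 := by
    rw [sqrt_Af_zero (by linarith), norm_real, Real.norm_of_nonneg (Real.sqrt_nonneg _), mul_one]
    exact Real.sqrt_le_one.2 (inv_le_one_of_one_le₀ (by linarith))
  refine (H.apriori O e1 (jet a c as) (f := -NN a c 0 J) (ξ := J 0 - J 2) (fun k x hx => ?_)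
    (fun k => ?_) ((jet a c as).rob ac)
    (b3.weaken' (fun _ _ => le_rfl) fun x hx => by rw [dl0 (h0 x hx), one_mul])
    (bdX_of (by positivity) (by positivity) b4 ((T 0).sub (T 2))) ((T 3).sub (T 0))
    ((T 5).sub (((T 1).smul _).mono b5)) i).mono ?_
  · have := eq a c as k x hx
    rw [EE, co_add, BoundedContinuousFunction.add_apply] at this
    exact eq_neg_of_add_eq_zero_left this
  · rw [co_sub, BoundedContinuousFunction.sub_apply, (jet a c as).t2' k (pt_mem ac _ k)]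
    ring
  · nlinarith [mul_le_mul_of_nonneg_right e2 (hB 0).nonneg]

variable {S : Set E3} {w : E3 → ℝ} {δ C : ℝ} {ι κ M : Type} [TopologicalSpace M]
  [ChartedSpace P218VA.E2 M] {m : Model S w δ C ι κ M} {i : ι} {s : ℝ} {J : Fin 6 → WA}

/-- **(U)** the jets of a cylindrical end are `O(w ^ (-7/8))` -/
theorem SJet.decay (h : SJet m i s J) :
    ∃ a K, s ≤ a ∧ 1 ≤ a ∧ ∀ b l, Bd (Icc a b) gw gw (J l) K :=
  decay_of (fun _ b ha => h.jet ha b) (fun _ b ha => h.eq ha b) h.small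

lemma om0 {a0 x : ℝ} (h0 : 0 < a0) (hx : 0 < x) : om a0 0 x = a0 ^ (3 / 8 : ℝ) * gw x := by
  have e1 : a0 ^ (7 / 8 : ℝ) = a0 ^ (3 / 8 : ℝ) * √a0 := by
    rw [Real.sqrt_eq_rpow, ← Real.rpow_add h0]; norm_num
  have := Real.sqrt_pos.2 h0
  rw [om, tau, sub_zero, norm_inv, norm_real, Real.norm_of_nonneg hx.le,
    Real.mul_rpow h0.le (inv_pos.2 hx).le, e1, Real.inv_rpow hx.le, gw, Real.rpow_neg hx.le]
  field_simp

lemma om_le_sg0 (a0 : ℝ) {x : ℝ} (hx : 0 < x) : om a0 0 x ≤ sg a0 0 x := by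
  rw [sg, dl0 hx, one_mul]
  exact le_add_of_nonneg_right (inv_nonneg.2 (Real.sqrt_nonneg _))

/-- the jets are small in the weight `om` in all modes -/
theorem SJet.decay_om (h : SJet m i s J) {ε : ℝ} (hε : 0 < ε) :
    ∃ a1, s ≤ a1 ∧ 1 ≤ a1 ∧ ∀ a0, a1 ≤ a0 → ∀ b l,
      Bd (Icc a0 b) (om a0 0) (om a0 0) (J l) ε := by
  obtain ⟨a, K, as, a1, hK⟩ := h.decay
  obtain ⟨u, hu⟩ := eventually_atTop.1
    ((tendsto_rpow_atTop (y := 3 / 8) (by norm_num)).eventually_ge_atTop (K / ε))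
  refine ⟨max a u, by simp [as], by simp [a1], fun a0 h0 b l => ?_⟩
  have h1 : a ≤ a0 := (le_max_left _ _).trans h0
  have h2 : 0 < a0 := by linarith
  have h3 := hu a0 ((le_max_right _ _).trans h0)
  have h4 := Real.rpow_pos_of_pos h2 (3 / 8)
  have e : ∀ x ∈ Icc a0 b, gw x ≤ (a0 ^ (3 / 8 : ℝ))⁻¹ * om a0 0 x := fun x hx => by
    rw [om0 h2 (h2.trans_le hx.1), inv_mul_cancel_left₀ h4.ne']
  refine (((hK b l).subset (Icc_subset_Icc_left h1)).weaken (by positivity) e e).mono ?_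
  rw [div_le_iff₀ hε] at h3
  rwa [inv_mul_le_iff₀ h4]

/-- **(U)** the jets are small in the standard class -/
theorem SJet.decay_std (h : SJet m i s J) {ε : ℝ} (hε : 0 < ε) :
    ∃ a1, s ≤ a1 ∧ 10 ^ 30 ≤ a1 ∧ ∀ a0, a1 ≤ a0 → ∀ b l,
      Bd (Icc a0 b) (sg a0 0) (om a0 0) (J l) ε := by
  obtain ⟨a, as, a1, h1⟩ := h.decay_om hε
  refine ⟨max a (10 ^ 30), by simp [as], le_max_right _ _, fun a0 h0 b l => ?_⟩
  have h2 := (le_max_left _ _).trans h0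
  exact (h1 a0 h2 b l).weaken' (fun x hx => om_le_sg0 _ (by linarith [hx.1])) fun _ _ => le_rfl

/-- the cylinder is in the admissible regime -/
lemma rg0 {a0 a b : ℝ} (h0 : 10 ^ 30 ≤ a0) (ha : a0 ≤ a) (hab : a ≤ b) : Rg a0 a b 0 := by
  refine ⟨h0, ha, hab, fun x hx => ?_⟩
  have h1 : a0 ≤ x := ha.trans hx.1
  have : a0 / (8 * x) ≤ 1 / 8 := by
    rw [div_le_div_iff₀ (by linarith) (by norm_num)]; linarith
  simp only [zero_mul, sub_zero, norm_one, one_re]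
  linarith

end Vale.Agent.P218XI
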