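import Vale.Agent.P218XI.Col1
import Vale.Agent.P218XI.Dec
import Vale.Agent.P218CH.EndD
import Vale.Agent.P218OP.Def

/-! The collar source on a cylindrical end in the Wiener algebra. -/

noncomputable section

namespace Vale.Agent.P218XI
open Set Complex Metric Filter Topology Vale.Agent.P218EN Vale.Agent.P218EN.WA Vale.Agent.P218CH
open Vale.Agent.P218CO (T3 J2 jm1 jcm rh st d012)
open Vale.Agent.P218GA (E3 Model)

/-- bounds on all bounded intervals give a bound on the half line -/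
theorem bd_Ici {a K : ℝ} {σ ω : ℝ → ℝ} {x : WA} (hp : ∀ w, a ≤ w → 0 < σ w ∧ 0 < ω w)
    (h : ∀ b, Bd (Icc a b) σ ω x K) : Bd (Ici a) σ ω x K := by
  have p : ∀ k w, a ≤ w → 0 < wt σ ω k w := fun k w hw => by
    unfold wt; split_ifs
    exacts [(hp w hw).1, (hp w hw).2]
  set f : ℤ → Ici a → ℝ := fun k w => ‖x.co k w‖ / wt σ ω k w
  have f0 : ∀ k w, 0 ≤ f k w := fun k w => div_nonneg (norm_nonneg _) (p k w w.2).le
  have hb : ∀ k, BddAbove (range (f k)) := fun k => ⟨K, by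
    rintro _ ⟨w, rfl⟩
    exact (div_le_iff₀ (p k w w.2)).2 ((h w).co_le k ⟨w.2, le_rfl⟩ (p k w w.2).le)⟩
  have c0 : ∀ k, 0 ≤ ⨆ w, f k w := fun k => Real.iSup_nonneg (f0 k)
  have key : ∀ F : Finset ℤ, ∑ k ∈ F, ⨆ w, f k w ≤ K := fun F => by
    refine le_of_forall_pos_le_add fun η hη => ?_
    have hη' : 0 < η / (F.card + 1) := by positivity
    choose u hu using fun k => exists_lt_of_lt_ciSup
      (sub_lt_self (⨆ w : Ici a, f k w) hη')
    obtain ⟨b, hb⟩ := (F.finite_toSet.image fun k => (u k : ℝ)).bddAbove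
    obtain ⟨c, g0, g1, g2, g3⟩ := h b
    have h1 : ∀ k ∈ F, ⨆ w, f k w ≤ c k + η / (F.card + 1) := fun k hk => by
      have := (div_le_iff₀ (p k _ (u k).2)).2 (g3 k (u k) ⟨(u k).2, hb ⟨k, hk, rfl⟩⟩)
      linarith [hu k]
    refine (Finset.sum_le_sum h1).trans ?_
    rw [Finset.sum_add_distrib, Finset.sum_const, nsmul_eq_mul]
    refine add_le_add ((g1.sum_le_tsum F fun k _ => g0 k).trans g2) ?_
    rw [← mul_div_assoc, div_le_iff₀ (by positivity)]
    nlinarith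
  exact ⟨fun k => ⨆ w, f k w, c0, summable_of_sum_le c0 key, Real.tsum_le_of_sum_le c0 key,
    fun k w hw => (div_le_iff₀ (p k w hw)).1 (le_ciSup (hb k) ⟨w, hw⟩)⟩

section send
variable {S : Set E3} {w : E3 → ℝ} {δ C : ℝ} {ι κ M : Type} [TopologicalSpace M]
  [ChartedSpace P218VA.E2 M] {m : Model S w δ C ι κ M} {i : ι} {s : ℝ} {J : Fin 6 → WA}

/-- the jets of the end of the shrinker in the form required by the end problem -/
theorem SJet.sEnd (h : SJet m i s J) {R : ℝ} (hR : 0 < R) :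
    ∃ a1, s ≤ a1 ∧ ∀ a, a1 ≤ a → SEnd a R J := by
  obtain ⟨a1, as, a0, h1⟩ := h.decay_om (ε := R / 10 ^ 12) (by positivity)
  refine ⟨a1, as, fun a ha => ⟨fun b _ => h.jet (as.trans ha) b, fun b _ => h.eq (as.trans ha) b,
    fun l => bd_Ici (fun x hx => ?_) fun b => h1 a ha b l, h.real⟩⟩
  have h2 : 0 < a := by linarith
  have := gw_pos (h2.trans_le hx)
  rw [om0 h2 (h2.trans_le hx), and_self]
  positivity

end send

section fn
variable {a b : ℝ} {f : ℝ → ℂ}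

lemma ev_fn' (hab : a ≤ b) (hf : ContinuousOn f (Icc a b)) (w θ : ℝ) :
    (fn a b f).ev w θ = f (cl a b w) := by rw [fn, ev_sc, mkB_apply hab hf]

lemma norm_fn_le (hab : a ≤ b) (hf : ContinuousOn f (Icc a b)) {M : ℝ}
    (h : ∀ w ∈ Icc a b, ‖f w‖ ≤ M) : ‖fn a b f‖ ≤ M := by
  rw [fn, sc, norm_single]
  exact (BoundedContinuousFunction.norm_le ((norm_nonneg _).trans (h a (left_mem_Icc.2 hab)))).2
    fun w => by rw [mkB_apply hab hf]; exact h _ (cl_mem hab w)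

lemma cj_fn (hab : a ≤ b) (hf : ContinuousOn f (Icc a b))
    (h : ∀ w ∈ Icc a b, starRingEnd ℂ (f w) = f w) : cj (fn a b f) = fn a b f :=
  ev_inj fun w θ => by rw [ev_cj, ev_fn' hab hf, h _ (cl_mem hab w)]

end fn

lemma cont_c1 (a : ℝ) : Continuous (P218CO.c1 a) := P218CO.continuous_d012 (P218CO.contDiff_st2 _)

lemma cont_c2 (a : ℝ) : Continuous (P218CO.c2 a) := P218CO.continuous_d012 (P218CO.contDiff_st2' _)

lemma cont_rh (a : ℝ) : Continuous (rh a) :=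
  continuous_ofReal.comp (P218CO.contDiff_st2 _).continuous

lemma norm_st_le (c w : ℝ) : ‖((st c w : ℝ) : ℂ)‖ ≤ 1 := by
  rw [norm_real, Real.norm_of_nonneg (P218CO.st_nonneg c w)]; exact P218CO.st_le_one c w

lemma exists_bound_c1 : ∃ M : ℝ, 0 < M ∧ ∀ a w, ‖(P218CO.c1 a w).2.1‖ ≤ M := by
  obtain ⟨M, hM⟩ := (isCompact_Icc (a := (3 : ℝ)) (b := 4)).exists_bound_of_continuousOn
    (cont_c1 0).continuousOn
  refine ⟨|M| + 1, by positivity, fun a w => ?_⟩
  have e : (P218CO.c1 a w).2.1 = (P218CO.c1 0 (w - a)).2.1 := by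
    have : st (a + 3) = fun u => st (0 + 3) (u - a) := funext fun u => by
      unfold st; congr 1; ring
    simp only [P218CO.c1, d012, this, deriv_comp_sub_const]
  rw [e]
  by_cases h : w - a ∈ Icc (3 : ℝ) 4
  · linarith [(norm_fst_le (P218CO.c1 0 (w - a)).2).trans ((norm_snd_le _).trans (hM _ h)),
      le_abs_self M]
  · rcases not_and_or.1 h with h | h
    · rw [P218CO.c1_lo (by linarith [not_le.1 h]), norm_zero]; positivity
    · rw [P218CO.c1_hi (by linarith [not_le.1 h]), norm_zero]; positivity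

/-- the normalised contribution of the function on the core -/
def dj (a w : ℝ) (jv : T3 ℂ) : Fin 6 → ℂ :=
  ![(jm1 (P218CO.c2 a w) jv).1, (jm1 (P218CO.c2 a w) jv).2.2, 0,
    2 * w * (jm1 (P218CO.c2 a w) jv).2.1, 2 * w * (jcm (P218CO.c2 a w) jv).1,
    2 * w * rA 0 w * (jcm (P218CO.c2 a w) jv).2.1]

/-- the same in the Wiener algebra -/
def dW (a : ℝ) (x : T3 WA) : Fin 6 → WA :=
  ![fn a (a + 6) (fun w => (P218CO.c2 a w).1) * x.1,
    fn a (a + 6) (fun w => (P218CO.c2 a w).1) * x.2.2, 0,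
    fn a (a + 6) (fun w => 2 * w * (P218CO.c2 a w).1) * x.2.1 +
      fn a (a + 6) (fun w => 2 * w * (P218CO.c2 a w).2.1) * x.1,
    fn a (a + 6) (fun w => 4 * w * (P218CO.c2 a w).2.1) * x.2.1 +
      fn a (a + 6) (fun w => 2 * w * (P218CO.c2 a w).2.2) * x.1,
    fn a (a + 6) (fun w => 2 * w * rA 0 w * (P218CO.c2 a w).2.1) * x.2.2]

/-- the value of a triple at a point -/
def evT (x : T3 WA) (p : ℝ × ℝ) : T3 ℂ := (x.1.ev p.1 p.2, x.2.1.ev p.1 p.2, x.2.2.ev p.1 p.2)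

variable {V : Type*} [NormedAddCommGroup V] [NormedSpace ℂ V]

/-- **the collar source** of a cylindrical end; `D v` is the first order jet of the input -/
def Cf (a : ℝ) (JS : Fin 6 → WA) (D : V →L[ℂ] T3 WA) (q : V × (Fin 6 → WA)) : WA :=
  cU (fn a (a + 6) (ef 0)) (fn a (a + 6) (rA 0)) (fn a (a + 6) fun w => (P218CO.c1 a w).1)
    (fn a (a + 6) fun w => 2 * w * (P218CO.c1 a w).2.1) (fn a (a + 6) (rh a))
    (clp a (a + 6) JS) q.2 (dW a (D q.1))

variable {a : ℝ} {JS : Fin 6 → WA} {D : V →L[ℂ] T3 WA}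

lemma le6 (a : ℝ) : a ≤ a + 6 := by linarith

lemma ev_dW (ha : 0 < a) (x : T3 WA) (w θ : ℝ) (i : Fin 6) :
    (dW a x i).ev w θ = dj a (cl a (a + 6) w) (evT x (w, θ)) i := by
  have h1 := cont_c2 a
  have h2 := (Prof.zero (b := a + 6) ha).cr
  fin_cases i <;>
    simp (disch := first | exact le6 a | fun_prop) only [dW, dj, evT, jm1, jcm, Fin.zero_eta,
      Fin.mk_one, Fin.reduceFinMk, Matrix.cons_val, Matrix.cons_val_zero, Matrix.cons_val_one,
      ev_add, ev_mul, ev_zero, ev_fn'] <;> ring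

lemma ev_Cf (ha : 0 < a) (v : V) (J : Fin 6 → WA) (w θ : ℝ) {u : ℝ} (hu : u = cl a (a + 6) w) :
    (Cf a JS D (v, J)).ev w θ = cU (ef 0 u) (rA 0 u) (P218CO.c1 a u).1
      (2 * u * (P218CO.c1 a u).2.1) (rh a u) (fun i => (JS i).ev u θ) (fun i => (J i).ev w θ)
      (dj a u (evT (D v) (w, θ))) := by
  have h1 := cont_c1 a
  have h3 := cont_rh a
  have h2 := (Prof.zero (b := a + 6) ha).cr
  have h4 := (Prof.zero (b := a + 6) ha).ce
  subst hu
  rw [Cf, ← evA_apply, map_cU]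
  simp (disch := first | exact le6 a | fun_prop) only [evA_apply, ev_fn', ev_dW ha, clp, ev_comp]

lemma dW_zero (a : ℝ) : dW a 0 = 0 := by
  funext i; fin_cases i <;> simp [dW]

lemma differentiable_dW (a : ℝ) : Differentiable ℂ (dW a) := by
  refine differentiable_pi.2 fun i => ?_
  fin_cases i <;> simp only [dW] <;> simp <;> fun_prop

lemma differentiable_Cf (a : ℝ) (JS : Fin 6 → WA) (D : V →L[ℂ] T3 WA) :
    Differentiable ℂ (Cf a JS D) :=
  differentiable_cU _ _ _ _ _ _ differentiable_snd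
    ((differentiable_dW a).comp (D.differentiable.comp differentiable_fst))

lemma Cf_zero : Cf a JS D (0, clp a (a + 6) JS) = 0 := by
  rw [Cf, map_zero, dW_zero, cU_self]

lemma Cf_supp (ha : 0 < a) (q : V × (Fin 6 → WA)) : WEq (Ici (a + 6)) (Cf a JS D q) 0 := by
  refine wEq_iff.2 fun w hw θ => ?_
  have e : a + 6 = cl a (a + 6) w := by
    change _ = max a (min w (a + 6))
    rw [min_eq_right hw, max_eq_right (le6 a)]
  have e2 : dj a (a + 6) (evT (D q.1) (w, θ)) = 0 := by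
    funext i; fin_cases i <;> simp [dj, P218CO.c2_hi]
  rw [ev_Cf ha q.1 q.2 w θ e, P218CO.c1_hi (by linarith), e2, mul_zero, cU_one, ev_zero]

lemma conj_rA {w : ℝ} (hw : 0 ≤ w) : starRingEnd ℂ (rA 0 w) = rA 0 w := by
  rw [rA, sqrt_Af_zero hw, conj_ofReal]

lemma Cf_real (ha : 0 < a) (hS : ∀ i, cj (JS i) = JS i) {v : V}
    (hv : cj (D v).1 = (D v).1 ∧ cj (D v).2.1 = (D v).2.1 ∧ cj (D v).2.2 = (D v).2.2)
    (J : Fin 6 → WA) : cj (Cf a JS D (v, J)) = Cf a JS D (v, fun i => cj (J i)) := by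
  refine ev_inj fun w θ => ?_
  have k : ∀ {x : WA}, cj x = x → ∀ u, starRingEnd ℂ (x.ev u θ) = x.ev u θ := fun hx u => by
    rw [← ev_cj, hx]
  have h0 : 0 ≤ cl a (a + 6) w := ha.le.trans (cl_mem (le6 a) w).1
  have e : ∀ i, starRingEnd ℂ (dj a (cl a (a + 6) w) (evT (D v) (w, θ)) i) =
      dj a (cl a (a + 6) w) (evT (D v) (w, θ)) i := fun i => by
    fin_cases i <;> simp [dj, jm1, jcm, evT, P218CO.c2, d012, k hv.1, k hv.2.1, k hv.2.2,
      conj_rA h0, map_ofNat]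
  rw [ev_cj, ev_Cf ha v _ w θ rfl, ev_Cf ha v _ w θ rfl, map_cU]
  simp only [e, ev_cj, k (hS _), conj_rA h0]
  simp [ef, P218CO.c1, d012, rh, map_ofNat]

/-- **the input of the end problem** on a cylindrical end -/
theorem exists_endIn : ∃ R0 : ℝ, 0 < R0 ∧ ∀ R, 0 < R → R ≤ R0 → ∃ a1 : ℝ, ∀ a, a1 ≤ a →
    ∀ {V : Type*} [NormedAddCommGroup V] [NormedSpace ℂ V] (D : V →L[ℂ] T3 WA) (JS : Fin 6 → WA),
    SEnd a R JS → ∃ r0, 0 < r0 ∧ ∀ r K (RV : Set V), 0 < r → r ≤ r0 → a ≤ K →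
      (∀ v ∈ RV, cj (D v).1 = (D v).1 ∧ cj (D v).2.1 = (D v).2.1 ∧ cj (D v).2.2 = (D v).2.2) →
      EndIn a (a + 6) r R K RV (Cf a JS D) JS := by
  obtain ⟨L, e0, L0, he, hL⟩ := exists_est_cU (R := WA)
  obtain ⟨M, M0, hM⟩ := exists_bound_c1
  obtain ⟨e, e1, e2, e3⟩ : ∃ e : ℝ, 0 < e ∧ e ≤ e0 ∧ L * e ≤ 1 / 10 ^ 14 :=
    ⟨min e0 (1 / 10 ^ 14 / L), by positivity, min_le_left _ _, by
      rw [← le_div_iff₀' L0]; exact min_le_right _ _⟩
  refine ⟨min 1 (e / (400 * M)), by positivity, fun R R0 hR => ?_⟩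
  obtain ⟨R1, R2⟩ := le_min_iff.1 hR
  rw [le_div_iff₀ (by positivity)] at R2
  refine ⟨max (10 ^ 30 / R ^ 2) ((100 / e) ^ 2), fun a ha V _ _ D JS hS => ?_⟩
  obtain ⟨a1, a2⟩ := max_le_iff.1 ha
  rw [div_le_iff₀' (by positivity)] at a1
  have a3 : 10 ^ 30 ≤ a := by
    have : 0 < a := lt_of_lt_of_le (by positivity) a2
    nlinarith [mul_le_mul_of_nonneg_right (pow_le_one₀ R0.le R1 : R ^ 2 ≤ 1) this.le]
  have a0 : 0 < a := by linarith
  have q0 := Real.sqrt_pos.2 a0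
  have q1 : 100 / √a ≤ e := by
    rw [div_le_comm₀ q0 e1]; exact Real.le_sqrt_of_sq_le a2
  have q2 : (√a)⁻¹ ≤ 100 / √a := by rw [div_eq_mul_inv]; linarith [inv_pos.2 q0]
  set δ := 10 * (R * ep a) with hδ
  have eδ : δ = R * (100 / √a) := by rw [hδ, ep]; ring
  have δ0 : 0 < δ := by rw [eδ]; positivity
  have δ1 : δ ≤ e := by rw [eδ]; exact (mul_le_of_le_one_left (by positivity) R1).trans q1
  obtain ⟨r, r0, hr⟩ := Metric.continuousAt_iff.1
    (((differentiable_dW a).comp D.differentiable).continuous.continuousAt (x := 0))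
    (e * δ * min 1 e⁻¹) (by positivity)
  have P := Prof.zero (b := a + 6) a0
  have h0 : ∀ w ∈ Icc a (a + 6), 0 < w := fun w hw => a0.trans_le hw.1
  have q3 : ∀ w ∈ Icc a (a + 6), √((2 * w)⁻¹) ≤ (√a)⁻¹ := fun w hw => by
    rw [← Real.sqrt_inv]
    exact Real.sqrt_le_sqrt (inv_anti₀ a0 (by linarith [hw.1]))
  have nr : ‖fn a (a + 6) (rA 0)‖ ≤ (√a)⁻¹ := norm_fn_le (le6 a) P.cr fun w hw => by
    rw [rA, sqrt_Af_zero (h0 w hw).le, norm_real, Real.norm_of_nonneg (Real.sqrt_nonneg _)]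
    exact q3 w hw
  have c1c := cont_c1 a
  refine ⟨r, r0, fun r' K RV r1 r2 hK hRV => ⟨⟨R0, R1, a1, le6 a, by linarith, r1,
    (differentiable_Cf a JS D).differentiableOn, fun v hv J hJ => ?_,
    fun v J k w hw => Cf_supp a0 _ k w hw, fun v hv => Cf_real a0 hS.realS (hRV v hv)⟩, hS, hK,
    fun _ _ _ => by rw [Cf_zero]⟩⟩
  have hd := (hr (ball_subset_ball r2 hv)).le
  simp only [Function.comp_apply, map_zero, dW_zero, dist_zero_right] at hd
  have η1 : e * δ * min 1 e⁻¹ ≤ e * δ := mul_le_of_le_one_right (by positivity) (min_le_left _ _)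
  have η2 : e * δ * min 1 e⁻¹ ≤ δ := by
    calc _ ≤ e * δ * e⁻¹ := by gcongr; exact min_le_right _ _
      _ = δ := by field_simp
  refine (hL δ e (e * δ * min 1 e⁻¹) _ _ _ _ _ _ _ _ (δ1.trans e2) e2 (η2.trans (δ1.trans e2))
    (norm_fn_le (le6 a) P.ce fun w hw => ?_) (nr.trans (q2.trans (q1.trans e2)))
    (norm_fn_le (le6 a) c1c.fst.continuousOn fun w _ => norm_st_le _ _)
    (norm_fn_le (le6 a) (cont_rh a).continuousOn fun w _ => norm_st_le _ _)
    ((pi_norm_le_iff_of_nonneg δ0.le).2 fun i => ?_) (mem_ball_zero_iff.1 hJ).le hd ?_).trans ?_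
  · have h1 := q3 w hw
    have h2 : (2 * w)⁻¹ ≤ 1 := inv_le_one_of_one_le₀ (by linarith [hw.1])
    have h3 := inv_pos.2 (by linarith [h0 w hw] : 0 < 2 * w)
    have h4 : (2 * w)⁻¹ ≤ √((2 * w)⁻¹) := Real.le_sqrt_of_sq_le (by nlinarith)
    linarith [norm_ef0 (h0 w hw)]
  · have p := ep_pos a0
    have h1 : ∀ w ∈ Icc a (a + 6), om a 0 w ≤ ep a * (1 : ℝ → ℝ) w := fun w hw => by
      simpa [dl0 (h0 w hw)] using ((rg0 a3 le_rfl (le6 a)).pt hw).om_le'
    refine (Bd.norm_comp_cl_le (le6 a) (((hS.bdS i).subset Icc_subset_Ici_self).weaken p.le h1 h1)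
      fun _ _ => ⟨le_rfl, le_rfl⟩).trans ?_
    rw [hδ]; nlinarith [mul_pos R0 p]
  · have nk : ‖fn a (a + 6) fun w => 2 * w * (P218CO.c1 a w).2.1‖ ≤ 4 * a * M :=
      norm_fn_le (f := fun w => 2 * w * (P218CO.c1 a w).2.1) (le6 a)
        ((continuous_const.mul continuous_ofReal).mul c1c.snd.fst).continuousOn fun w hw => by
        rw [norm_mul, norm_mul, norm_real, Real.norm_of_nonneg (h0 w hw).le, Complex.norm_two]
        exact mul_le_mul (by linarith [hw.2]) (hM a w) (norm_nonneg _) (by positivity)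
    calc _ ≤ (√a)⁻¹ * (4 * a * M) * δ := by gcongr
      _ = R * (400 * M) * (a / (√a * √a)) := by rw [eδ]; field_simp; norm_num
      _ ≤ e := by rwa [Real.mul_self_sqrt a0.le, div_self a0.ne', mul_one]
  · have h1 : (δ + e + e * δ * min 1 e⁻¹) * δ + e * δ * min 1 e⁻¹ ≤ 4 * (e * δ) := by nlinarith
    calc _ ≤ L * (4 * (e * δ)) := by gcongr
      _ = 4 * (L * e) * δ := by ring
      _ ≤ 4 * (1 / 10 ^ 14) * δ := by gcongr
      _ ≤ _ := by rw [hδ]; nlinarith [mul_pos R0 (ep_pos a0)]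

end Vale.Agent.P218XI
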