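import Vale.Agent.P218XI.Col2
import Vale.Agent.P218CO.Geo

/-! Solutions of the end problem solve the equation of the collar system. -/

noncomputable section

namespace Vale.Agent.P218XI
open Set Complex Metric Filter Topology Vale.Agent.P218EN Vale.Agent.P218EN.WA Vale.Agent.P218CH
open Vale.Agent.P218CO (T3 J2 jm1 jcm rh st d012 pj EndOp EndSol LinEnd u1j pair sgn)
open Vale.Agent.P218OP (cylOp shift cylA cylB tj)
open Vale.Agent.P218GA (E3 Model)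

/-- ordinary jets from absolute normalised jets -/
def jt (w : ℝ) (K : Fin 6 → ℂ) : J2 ℂ :=
  ((K 0, xf w * K 3, K 1), (xf w * K 4, rA 0 w * K 5, K 2))

/-- the function given by a jet -/
def e0 (K : Fin 6 → WA) (p : ℝ × ℝ) : ℂ := (K 0).ev p.1 p.2

/-- the ordinary jet at a point, as a linear map -/
def jtL (p : ℝ × ℝ) : (Fin 6 → WA) →L[ℂ] J2 ℂ :=
  (((evL p.1 p.2).comp (.proj 0)).prod ((xf p.1 • (evL p.1 p.2).comp (.proj 3)).prod
    ((evL p.1 p.2).comp (.proj 1)))).prod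
  ((xf p.1 • (evL p.1 p.2).comp (.proj 4)).prod ((rA 0 p.1 • (evL p.1 p.2).comp (.proj 5)).prod
    ((evL p.1 p.2).comp (.proj 2))))

lemma jtL_apply (p : ℝ × ℝ) (K : Fin 6 → WA) : jtL p K = jt p.1 fun l => (K l).ev p.1 p.2 := rfl

lemma jtL_fst (p : ℝ × ℝ) (K : Fin 6 → WA) : (jtL p K).1.1 = e0 K p := rfl

lemma norm_e0_le (K : Fin 6 → WA) (p : ℝ × ℝ) : ‖e0 K p‖ ≤ ‖K‖ :=
  (norm_ev_le _ _ _).trans (norm_le_pi_norm K 0)

lemma norm_jtL_le (K : Fin 6 → WA) {p : ℝ × ℝ} (hp : 1 ≤ p.1) : ‖jtL p K‖ ≤ ‖K‖ := by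
  have h : ∀ l, ‖(K l).ev p.1 p.2‖ ≤ ‖K‖ := fun l => (norm_ev_le _ _ _).trans (norm_le_pi_norm K l)
  have h1 : (2 * p.1)⁻¹ ≤ 1 := inv_le_one_of_one_le₀ (by linarith)
  have h2 : ‖xf p.1‖ ≤ 1 := by rwa [← Af_zero, norm_Af0 (by linarith)]
  have h3 : ‖rA 0 p.1‖ ≤ 1 := by
    rw [rA, sqrt_Af_zero (by linarith), norm_real, Real.norm_of_nonneg (Real.sqrt_nonneg _)]
    exact Real.sqrt_le_one.2 h1
  simp only [jtL_apply, jt, Prod.norm_def, max_le_iff]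
  exact ⟨⟨h 0, by simpa using norm_mul_le_of_le h2 (h 3), h 1⟩,
    by simpa using norm_mul_le_of_le h2 (h 4), by simpa using norm_mul_le_of_le h3 (h 5), h 2⟩

lemma jtL_congr {I : Set ℝ} {K K' : Fin 6 → WA} (h : ∀ l, WEq I (K l) (K' l)) {p : ℝ × ℝ}
    (hp : p.1 ∈ I) : jtL p K = jtL p K' := by
  simp only [jtL_apply, fun l => wEq_iff.1 (h l) p.1 hp p.2]

lemma jtL_clp {a L : ℝ} (K : Fin 6 → WA) {p : ℝ × ℝ} (hp : p.1 ∈ Icc a L) :
    jtL p (clp a L K) = jtL p K := by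
  simp only [jtL_apply, clp, ev_comp, cl_of_mem hp]

lemma continuous_e0 (K : Fin 6 → WA) : Continuous (e0 K) := continuous_ev _

lemma per_e0 (K : Fin 6 → WA) : P218MP.Per (e0 K) := fun w θ => P218EF.ev_per _ w θ

lemma e0_sub (K K' : Fin 6 → WA) (p : ℝ × ℝ) : e0 (K - K') p = e0 K p - e0 K' p := ev_sub _ _ _ _

lemma im_e0 {K : Fin 6 → WA} (h : cj (K 0) = K 0) (p : ℝ × ℝ) : (e0 K p).im = 0 := by
  rw [← conj_eq_iff_im, e0, ← ev_cj, h]

theorem pj_e0 {a L : ℝ} {K : Fin 6 → WA} (ha : 0 < a) (h : Jet a L (Af 0) K) {p : ℝ × ℝ}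
    (hp : p.1 ∈ Ioo a L) : ContDiffAt ℝ 2 (e0 K) p ∧ pj (e0 K) p = jtL p K := by
  have P := Prof.zero (b := L) ha
  have h1 := P218EF.jet2_of_jet h P.cA P.cr
  rw [← interior_Icc] at hp
  obtain ⟨e1, e2, e3, e4, e5⟩ := P218EF.pd_jet2 h1 hp
  refine ⟨P218EF.contDiffAt_jet2 h1 hp, ?_⟩
  unfold e0
  simp only [pj, P218CO.cj, e1, e2, e3, e4, e5, jtL_apply, jt, Af_zero, rA]

/-- the equation of the collar system in terms of normalised jets -/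
lemma END_eq (a : ℝ) {Jf : ℝ × ℝ → J2 ℂ} {p : ℝ × ℝ} (hp : 0 < p.1) {S : Fin 6 → ℂ}
    (hS : Jf p = jt p.1 S) (jv : T3 ℂ) (K : Fin 6 → ℂ) :
    (shift (fun p => cylA p.1) (fun p => cylB p.1) Jf).END a p jv (jt p.1 (K - S)) =
      nU (ef 0 p.1) (rA 0 p.1) (P218CO.c1 a p.1).1 (2 * p.1 * (P218CO.c1 a p.1).2.1) (rh a p.1)
        S K (dj a p.1 jv) := by
  have x := xf_eq hp
  have r : rA 0 p.1 ^ 2 = xf p.1 := by rw [rA_sq, Af_zero]
  set u := gu (P218CO.c1 a p.1).1 (2 * p.1 * (P218CO.c1 a p.1).2.1) S K (dj a p.1 jv) with hu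
  set k := (jt p.1 S).1 + u1j a p.1 jv (jt p.1 (K - S)).1 with hk
  have k1 : k.1 = u.1 := by simp [hk, hu, gu, dj, jt, u1j, jm1]; ring
  have k2 : k.2.2 = u.2.1 := by simp [hk, hu, gu, dj, jt, u1j, jm1]; ring
  have k3 : 2 * p.1 * k.2.1 = u.2.2 := by
    simp [hk, hu, gu, dj, jt, u1j, jm1]
    linear_combination (S 3 + (P218CO.c1 a p.1).1 * (K 3 - S 3)) * x
  have b1 : cylB p.1 ((jt p.1 S).1 + (jt p.1 (K - S)).1) = bU (ef 0 p.1) (rA 0 p.1) K := by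
    simp only [cylB, bU, r, jt, Prod.fst_add, Prod.snd_add, Pi.sub_apply, add_sub_cancel]
    congr 1
    linear_combination K 3 * x
  have b2 : rh a p.1 * cylB p.1 k = rh a p.1 * bU (ef 0 p.1) (rA 0 p.1) (K + dj a p.1 jv) := by
    rcases le_total p.1 (a + 4) with h | h
    · rw [P218CO.rh_lo h, zero_mul, zero_mul]
    · rw [cylB, k1, k2, k3, hu, P218CO.c1_hi h, bU, r]
      simp [gu]
  simp only [EndOp.END, shift, hS, ← hk, b1, mul_sub, b2, nU, ← hu, aU, r, pair, cylA, k1, k2, k3]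
  simp only [jt, dj, jcm, pa12, Prod.fst_add, Prod.snd_add, Pi.sub_apply, Pi.add_apply,
    Matrix.cons_val]
  linear_combination pa11 (ef 0 p.1) u.1 u.2.1 * K 4 * x +
    2 * (1 + ef 0 p.1 * (1 + u.1) ^ 2) ^ 2 * (u.2.2 - (1 + u.1)) * u.2.1 * (1 + u.1) *
      ((P218CO.c2 a p.1).2.1 * jv.2.2) * (2 * p.1 * r + x)

section orient
variable {o : EndOp} {s : ℝ} {I : Set ℝ} {jv : ℝ × ℝ → T3 ℂ} {μ : ℝ × ℝ → ℂ}

lemma orient_END (ε : Bool) (p : ℝ × ℝ) (j : T3 ℂ) (k : J2 ℂ) :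
    (o.orient ε).END s p j ((sgn ε : ℂ) • k) = sgn ε * o.END s p ((sgn ε : ℂ) • j) k := by
  cases ε <;> simp [EndOp.orient, sgn, EndOp.flip_END]

theorem endSol_orient (ε : Bool) (h : EndSol o s I (fun p => (sgn ε : ℂ) • jv p) μ) :
    EndSol (o.orient ε) s I jv fun p => sgn ε * μ p :=
  ⟨fun x θ => by simp only [h.per x θ], fun p hp => contDiffAt_const.mul (h.cd p hp),
    fun p hp => by
      rw [show pj (fun p => sgn ε * μ p) p = _ from P218CO.cj_csmul (sgn ε : ℂ) (h.cd p hp),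
        orient_END, h.eq p hp, mul_zero]⟩

theorem linEnd_orient (ε : Bool) (h : LinEnd o s (fun p => (sgn ε : ℂ) • jv p) μ) :
    LinEnd (o.orient ε) s jv fun p => sgn ε * μ p :=
  ⟨fun x θ => by simp only [h.per x θ], continuousOn_const.mul h.cont,
    fun p hp => contDiffAt_const.mul (h.cd p hp), fun p hp => by
      rw [show pj (fun p => sgn ε * μ p) p = _ from P218CO.cj_csmul (sgn ε : ℂ) (h.cd p hp)]
      simp only [smul_comm _ (sgn ε : ℂ), orient_END]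
      simpa only [smul_comm _ (sgn ε : ℂ), mul_zero] using (h.eq p hp).const_mul (sgn ε : ℂ)⟩

theorem linEnd_congr {jv' : ℝ × ℝ → T3 ℂ} (h : LinEnd o s jv μ)
    (h' : ∀ p : ℝ × ℝ, s < p.1 → p.1 < s + 6 → jv' p = jv p) : LinEnd o s jv' μ := by
  refine ⟨h.per, h.cont, h.cd, fun p hp => ?_⟩
  rcases lt_or_ge p.1 (s + 6) with h1 | h1
  · rw [h' p hp h1]; exact h.eq p hp
  · simpa only [o.END_hi h1] using h.eq p hp

end orient

section glue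
variable {a L0 L : ℝ} {Z : ℝ → Fin 6 → WA} {p : ℝ × ℝ}

/-- the function given by a compatible family of jets -/
def gl (L0 : ℝ) (Z : ℝ → Fin 6 → WA) (p : ℝ × ℝ) : ℂ := e0 (Z (max L0 p.1)) p

/-- compatible families -/
def Cpt (a L0 : ℝ) (Z : ℝ → Fin 6 → WA) : Prop :=
  ∀ L L', L0 ≤ L → L ≤ L' → ∀ l, WEq (Icc a L) (Z L l) (Z L' l)

lemma per_gl (L0 : ℝ) (Z : ℝ → Fin 6 → WA) : P218MP.Per (gl L0 Z) := fun w θ => per_e0 _ w θ

lemma Cpt.eq (h : Cpt a L0 Z) (hL : L0 ≤ L) (hp : p.1 ∈ Icc a L) : gl L0 Z p = e0 (Z L) p :=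
  wEq_iff.1 (h _ L (le_max_left _ _) (max_le hL hp.2) 0) _ ⟨hp.1, le_max_right _ _⟩ _

lemma Cpt.ev (h : Cpt a L0 Z) (hL : L0 ≤ L) (hp : p.1 ∈ Ioo a L) : gl L0 Z =ᶠ[𝓝 p] e0 (Z L) :=
  (continuous_fst.continuousAt.eventually (isOpen_Ioo.mem_nhds hp)).mono fun _ hq =>
    h.eq hL (Ioo_subset_Icc_self hq)

lemma Cpt.cont (h : Cpt a L0 Z) : ContinuousOn (gl L0 Z) (Ici a ×ˢ univ) := fun p hp => by
  refine (continuous_e0 (Z (max L0 (p.1 + 1)))).continuousWithinAt.congr_of_eventuallyEq ?_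
    (h.eq (le_max_left _ _) ⟨hp.1, le_max_of_le_right (by linarith)⟩)
  filter_upwards [self_mem_nhdsWithin, mem_nhdsWithin_of_mem_nhds
    (continuous_fst.continuousAt.eventually (Iio_mem_nhds (lt_add_one p.1)))] with q h1 h2
  exact h.eq (le_max_left _ _) ⟨h1.1, le_max_of_le_right (le_of_lt h2)⟩

lemma Cpt.pj (h : Cpt a L0 Z) (ha : 0 < a) (hL : L0 ≤ L) (hj : Jet a L (Af 0) (Z L))
    (hp : p.1 ∈ Ioo a L) : ContDiffAt ℝ 2 (gl L0 Z) p ∧ pj (gl L0 Z) p = jtL p (Z L) :=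
  ⟨(pj_e0 ha hj hp).1.congr_of_eventuallyEq (h.ev hL hp),
    (P218CO.cj_congr (h.ev hL hp)).trans (pj_e0 ha hj hp).2⟩

lemma mem_lev (L0 : ℝ) (hp : a < p.1) : p.1 ∈ Ioo a (max L0 (p.1 + 1)) :=
  ⟨hp, lt_max_of_lt_right (lt_add_one _)⟩

lemma cpt_of_clp (h : ∀ L L', L0 ≤ L → L ≤ L' → clp a L (Z L') = Z L) : Cpt a L0 Z :=
  fun L L' h1 h2 l k w hw => by rw [← h L L' h1 h2, clp, co_comp, cl_of_mem hw]

lemma Cpt.sub (h : Cpt a L0 Z) (K : Fin 6 → WA) : Cpt a L0 fun L => Z L - K :=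
  fun L L' h1 h2 l k w hw => by
    simp only [Pi.sub_apply, co_sub, BoundedContinuousFunction.sub_apply, h L L' h1 h2 l k w hw]

end glue

variable {S : Set E3} {w : E3 → ℝ} {δ C : ℝ} {ι κ M : Type} [TopologicalSpace M]
  [ChartedSpace P218VA.E2 M] {m : Model S w δ C ι κ M} {i : ι} {s0 : ℝ} {JS : Fin 6 → WA}
  {V : Type*} [NormedAddCommGroup V] [NormedSpace ℂ V] {D : V →L[ℂ] T3 WA} {a L : ℝ}

namespace SJet
variable (h : SJet m i s0 JS)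
include h

lemma tj_eq {p : ℝ × ℝ} (hp : s0 ≤ p.1) : tj (TU m i) p = jtL p JS := by
  simp only [jtL_apply, jt, tj, ← Af_zero, rA, h.A3 hp, h.A4 hp, h.A5 hp, h.e0 _ _ hp,
    h.e1 _ _ hp, h.e2 _ _ hp]

lemma e0_eq {p : ℝ × ℝ} (hp : s0 ≤ p.1) : 1 + P218XI.e0 JS p = m.U i p := by
  rw [P218XI.e0, h.e0 _ _ hp, TU_zero]

/-- the defect of the end problem is the equation of the collar system -/
theorem ev_dfc (ha : s0 ≤ a) (v : V) (K : Fin 6 → WA) {p : ℝ × ℝ} (hp : p.1 ∈ Icc a L) :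
    (EE a L 0 K - Cf a JS D (v, clp a (a + 6) K)).ev p.1 p.2 =
      (cylOp m i).END a p (evT (D v) p) (jtL p (K - JS)) := by
  have a0 := h.pos ha
  have P := Prof.zero (b := L) a0
  have e : jtL p (K - JS) =
      jt p.1 ((fun l => (K l).ev p.1 p.2) - fun l => (JS l).ev p.1 p.2) := by
    simp only [jtL_apply, Pi.sub_apply, ev_sub]; rfl
  have r : rA 0 p.1 ^ 2 = xf p.1 := by rw [rA_sq, Af_zero]
  have e1 : (EE a L 0 K).ev p.1 p.2 = eU (ef 0 p.1) (rA 0 p.1) fun l => (K l).ev p.1 p.2 := by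
    rw [ev_EE P.cA P.cx P.ce P.cr K hp, eU, r, Af_zero, ← Af_zero]; rfl
  rw [cylOp, e, END_eq a (a0.trans_le hp.1) (h.tj_eq (ha.trans hp.1)), ev_sub, e1]
  rcases le_total p.1 (a + 6) with h1 | h1
  · have hm : p.1 ∈ Icc a (a + 6) := ⟨hp.1, h1⟩
    rw [ev_Cf a0 v _ _ _ (cl_of_mem hm).symm, cU]
    simp only [clp, ev_comp, cl_of_mem hm, sub_sub_cancel]
  · have e2 : dj a p.1 (evT (D v) p) = 0 := by
      funext l; fin_cases l <;> simp [dj, P218CO.c2_hi h1]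
    rw [wEq_iff.1 (Cf_supp a0 _) _ h1, ev_zero, sub_zero, P218CO.c1_hi (by linarith), e2,
      mul_zero, ← sub_eq_zero]
    exact cU_one _ _ _ _ _

theorem endSol_abs (ha : s0 ≤ a) {v : V} {K : Fin 6 → WA} (hK : Jet a L (Af 0) K)
    (he : WEq (Icc a L) (EE a L 0 K) (Cf a JS D (v, clp a (a + 6) K))) :
    EndSol (cylOp m i) a (Ioo a L) (evT (D v)) (P218XI.e0 (K - JS)) := by
  have hj := fun (p : ℝ × ℝ) (hp : p.1 ∈ Ioo a L) => pj_e0 (h.pos ha) (hK.sub (h.jet ha L)) hp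
  refine ⟨per_e0 _, fun p hp => (hj p hp).1, fun p hp => ?_⟩
  rw [(hj p hp).2, ← h.ev_dfc ha v K (Ioo_subset_Icc_self hp), ev_sub,
    wEq_iff.1 he _ (Ioo_subset_Icc_self hp), sub_self]

/-- solutions for the profile `α` -/
theorem endSol_rp (ha : s0 ≤ a) {W : ℝ} {α : ℂ} (P : Prof a W α) (hW : a + 6 ≤ W) {v : V}
    {J : Fin 6 → WA} {ξ γ : WA} (hJ : Sol a W α J (src a (a + 6) (Cf a JS D) α v J) ξ γ) :
    EndSol (cylOp m i) a (Ioo a W) (evT (D v)) (P218XI.e0 (rp a W 0 α J - JS)) := by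
  have a0 := h.pos ha
  have P0 := Prof.zero (b := W) a0
  have e : clp a (a + 6) (rp a W 0 α J) = ab a (a + 6) α J := funext fun l => ext'' fun k x =>
    rp_congr P0 P hW (fun _ _ _ _ => rfl) l k _ (cl_mem (le6 a) x)
  refine h.endSol_abs ha (jet_rp P0 P hJ.jet) fun k x hx => ?_
  rw [EE_rp P0 P J k x hx, co_fn_mul ((cmu P0 P).fun_pow 2) hx, hJ.eq k x hx, e, src]
  rcases le_total x (a + 6) with h1 | h1
  · rw [co_fn_mul ((cmu (P.mono hW) (P0.mono hW)).fun_pow 2) ⟨hx.1, h1⟩, ← mul_assoc, ← mul_pow,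
      P218CH.mu, P218CH.mu, div_mul_div_cancel₀ (P.rA_ne hx), div_self (P0.rA_ne hx), one_pow, one_mul]
  · rw [fn, co_sc_mul, Cf_supp a0 _ k x h1]
    simp

theorem endSol_ab (ha : s0 ≤ a) {W : ℝ} {α : ℂ} (P : Prof a W α) (hW : a + 6 ≤ W) (hL : L ≤ W)
    {v : V} {J : Fin 6 → WA} {ξ γ : WA} (hJ : Sol a W α J (src a (a + 6) (Cf a JS D) α v J) ξ γ) :
    EndSol (cylOp m i) a (Ioo a L) (evT (D v)) (P218XI.e0 (ab a L α J - JS)) := by
  have h1 := h.endSol_rp ha P hW hJ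
  have e : ∀ p : ℝ × ℝ, p.1 ∈ Ioo a L →
      P218XI.e0 (ab a L α J - JS) =ᶠ[𝓝 p] P218XI.e0 (rp a W 0 α J - JS) := fun p hp =>
    (continuous_fst.continuousAt.eventually (isOpen_Ioo.mem_nhds hp)).mono fun q hq => by
      have hq' := Ioo_subset_Icc_self hq
      rw [e0_sub, e0_sub, P218XI.e0, ab, ev_comp, cl_of_mem hq']
      congr 1
      exact (wEq_iff.1 (rp_congr (Prof.zero (h.pos ha)) P hL (fun _ _ _ _ => rfl) 0) _ hq' _).symm
  have s : Ioo a L ⊆ Ioo a W := Ioo_subset_Ioo_right hL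
  exact ⟨per_e0 _, fun p hp => (h1.cd p (s hp)).congr_of_eventuallyEq (e p hp), fun p hp => by
    rw [show pj _ p = _ from P218CO.cj_congr (e p hp)]; exact h1.eq p (s hp)⟩

end SJet

end Vale.Agent.P218XI
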