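import Vale.Agent.P218XI.Fr
import Vale.Agent.P218EN.Poly

/-! The shrinker equation on a cylindrical end: absolute form and form with a profile. -/

open scoped Matrix Topology Real ContDiff
open Complex Filter Set

noncomputable section

set_option linter.unusedSectionVars false

namespace Vale.Agent.P218XI

open Vale.Agent.P218VA Vale.Agent.P218GA
open Vale.Agent.P218EN (pE pa11 pa12 pa22 pb pb0 pB Af xf ef Af')

/-- the equation of a cylindrical end with the profile `τ`, `τ² = ε`, `τ' = - A τ` -/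
theorem EE_cyl {w x τ ε A : ℂ} (hx : 2 * w * x = 1) (hτ : τ ^ 2 = ε) (hA : 16 * w ^ 2 * ε * A = 1)
    (r η t u p q s : ℂ) :
    P218CN.EE 0 1 0 (τ * (1 + η)) (τ * t) (τ * u) (2 * w * (τ * (A * (p - (1 + η)))))
      (4 * w ^ 2 * (τ * (A * (p - (1 + η)))))
      (4 * w ^ 2 * (τ * (A * (q - 2 * A * p + (4 * x - A) * (1 + η)))))
      (2 * w * (τ * (r * s - A * t))) = 4 * ε * pE A x ε r η t u p q s := by
  have hw : w ≠ 0 := by rintro rfl; simp at hx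
  have hε : ε ≠ 0 := by rintro rfl; simp at hA
  have h0 : τ ≠ 0 := by rintro rfl; exact hε (by simp [← hτ])
  have e1 : x = 1 / (2 * w) := by field_simp; linear_combination hx
  have e2 : A = 1 / (16 * w ^ 2 * ε) := by field_simp; linear_combination hA
  simp only [P218CN.EE, P218CN.a11, P218CN.a12, P218CN.a22, P218CN.bb, P218CN.dd, P218CN.gg,
    P218CN.hh, P218CN.lam, pE, pa11, pa12, pa22, pb, pb0]
  generalize 1 + η = h
  subst hτ e1 e2
  field_simp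
  ring

lemma xf_eq {w : ℝ} (hw : 0 < w) : 2 * w * xf w = 1 :=
  mul_inv_cancel₀ (mul_ne_zero two_ne_zero (ofReal_ne_zero.2 hw.ne'))

lemma Af_eq {α : ℂ} {w : ℝ} (hw : 0 < w) (hv : 1 - α * w ≠ 0) :
    16 * w ^ 2 * ef α w * Af α w = 1 := by
  have : (w : ℂ) ≠ 0 := ofReal_ne_zero.2 hw.ne'
  unfold ef Af
  generalize 1 - α * w = v at hv
  field_simp; norm_num

lemma Af_zero (w : ℝ) : Af 0 w = xf w := by simp [Af, xf]

lemma Af_mul {α : ℂ} {w : ℝ} (hv : 1 - α * w ≠ 0) : (1 - α * w) * Af α w = xf w := by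
  unfold Af xf; field_simp

lemma ef_eq (α : ℂ) (w : ℝ) : ef α w = ef 0 w * (1 - α * w) := by unfold ef; ring

/-- the factor `1 / √(8 w)` -/
def kap (w : ℝ) : ℂ := ((√(8 * w))⁻¹ : ℝ)

/-- the profile `√(1 - α w)` -/
def prof (α : ℂ) (w : ℝ) : ℂ := Complex.sqrt (1 - α * w)

lemma kap_sq {w : ℝ} (hw : 0 ≤ w) : kap w ^ 2 = ef 0 w := by
  rw [kap, ← ofReal_pow, inv_pow, Real.sq_sqrt (by linarith), ef]; simp

lemma prof_sq (α : ℂ) (w : ℝ) : prof α w ^ 2 = 1 - α * w := Complex.cpow_ofNat_inv_pow _ 2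

lemma prof_zero (w : ℝ) : prof 0 w = 1 := by simp [prof, Complex.sqrt]

lemma kap_prof_sq (α : ℂ) {w : ℝ} (hw : 0 ≤ w) : (kap w * prof α w) ^ 2 = ef α w := by
  rw [mul_pow, kap_sq hw, prof_sq, ← ef_eq]

lemma contDiffAt_kap {w : ℝ} (hw : 0 < w) : ContDiffAt ℝ ∞ kap w := by
  have h : 0 < 8 * w := by linarith
  exact ofRealCLM.contDiff.contDiffAt.comp w
    (((contDiffAt_const.mul contDiffAt_id).sqrt h.ne').inv (Real.sqrt_pos.2 h).ne')

lemma hasDerivAt_kap {w : ℝ} (hw : 0 < w) : HasDerivAt kap (-(xf w * kap w)) w := by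
  have h : 0 < 8 * w := by linarith
  have h1 := Real.sqrt_pos.2 h
  refine ((((hasDerivAt_id w).const_mul 8).sqrt h.ne').inv h1.ne').ofReal_comp.congr_deriv ?_
  have h2 : xf w = (((2 * w)⁻¹ : ℝ) : ℂ) := by simp [xf]
  rw [h2, kap, ← ofReal_mul, ← ofReal_neg]
  congr 1
  simp only [id]
  rw [Real.sq_sqrt h.le]
  field_simp

lemma hasDerivAt_xf {w : ℝ} (hw : 0 < w) : HasDerivAt xf (-(2 * xf w ^ 2)) w := by
  have h : (w : ℂ) ≠ 0 := ofReal_ne_zero.2 hw.ne'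
  refine (((hasDerivAt_id w).ofReal_comp.const_mul 2).inv
    (mul_ne_zero two_ne_zero h)).congr_deriv ?_
  simp only [xf, id]
  push_cast
  field_simp

lemma hasDerivAt_Af {α : ℂ} {w : ℝ} (hw : 0 < w) (hv : 1 - α * w ≠ 0) :
    HasDerivAt (Af α) (Af' α w) w := by
  have h : (w : ℂ) ≠ 0 := ofReal_ne_zero.2 hw.ne'
  have h1 := (hasDerivAt_id w).ofReal_comp
  refine (((h1.const_mul 2).mul ((h1.const_mul α).const_sub 1)).inv
    (mul_ne_zero (mul_ne_zero two_ne_zero h) hv)).congr_deriv ?_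
  simp only [Af', Af, xf, id, Pi.mul_apply]
  push_cast
  field_simp
  ring

lemma hasDerivAt_prof {α : ℂ} {w : ℝ} (hw : 0 < w) (hv : 1 - α * w ∈ slitPlane) :
    HasDerivAt (prof α) (-((Af α w - xf w) * prof α w)) w := by
  have h : (w : ℂ) ≠ 0 := ofReal_ne_zero.2 hw.ne'
  have h0 := slitPlane_ne_zero hv
  have h2 := prof_sq α w
  have h3 : prof α w ≠ 0 := fun e => h0 (by rw [← h2, e]; ring)
  refine ((hasDerivAt_sqrt' hv).comp w
    (((hasDerivAt_id w).ofReal_comp.const_mul α).const_sub 1)).congr_deriv ?_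
  change 1 / (2 * prof α w) * _ = _
  simp only [Af, xf]
  push_cast
  field_simp
  linear_combination (α * w) * h2

/-! ### Change of the profile -/

section prof
variable {α : ℂ} {w : ℝ} {ρ : ℂ} (hw : 0 < w) (hv : 1 - α * w ≠ 0) (hρ : ρ ^ 2 = 1 - α * w)
  (r η t u p q s : ℂ)
include hρ

lemma pa11_prof : pa11 (ef 0 w) (ρ * (1 + η) - 1) (ρ * t) = ρ ^ 3 * pa11 (ef α w) η t := by
  simp only [pa11, ef_eq α w, ← hρ]; ring

include hw hv

lemma P_prof : 2 * w * (ρ * (Af α w * p - (Af α w - xf w) * (1 + η))) - ρ * (1 + η) =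
    ρ * (p - (1 + η)) / ρ ^ 2 := by
  have : (w : ℂ) ≠ 0 := ofReal_ne_zero.2 hw.ne'
  rw [hρ]; unfold Af xf; field_simp; ring

lemma pa12_prof : pa12 (ef 0 w) r (ρ * (1 + η) - 1) (ρ * t)
    (2 * w * (ρ * (Af α w * p - (Af α w - xf w) * (1 + η)))) = ρ * pa12 (ef α w) r η t p := by
  have h0 : ρ ≠ 0 := fun e => hv (by rw [← hρ, e]; ring)
  simp only [pa12, add_sub_cancel, P_prof hw hv hρ, ef_eq α w, ← hρ]
  field_simp

lemma pa22_prof : pa22 (xf w) (ef 0 w) (ρ * (1 + η) - 1)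
    (2 * w * (ρ * (Af α w * p - (Af α w - xf w) * (1 + η)))) = ρ * pa22 (Af α w) (ef α w) η p := by
  have h0 : ρ ≠ 0 := fun e => hv (by rw [← hρ, e]; ring)
  simp only [pa22, add_sub_cancel, P_prof hw hv hρ, ef_eq α w, ← hρ]
  rw [← Af_mul hv, ← hρ]
  field_simp

/-- the absolute form of the equation for `U = ρ (1 + η)`, `ρ² = 1 - α w` -/
theorem pE_prof : pE (xf w) (xf w) (ef 0 w) 1 (ρ * (1 + η) - 1) (ρ * t) (ρ * u)
    (2 * w * (ρ * (Af α w * p - (Af α w - xf w) * (1 + η))))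
    (2 * w * (ρ * (Af α w * q - 2 * (Af α w - xf w) * Af α w * p
      - (Af α w - xf w) ^ 2 * (1 + η)))) (ρ * (r * s - (Af α w - xf w) * t)) =
      (1 - α * w) * pE (Af α w) (xf w) (ef α w) r η t u p q s := by
  have hε : ef 0 w ≠ 0 := fun e => by simpa [e] using Af_eq (α := 0) hw (by simp)
  have hx := xf_eq hw
  have k1 := EE_cyl hx (τ := kap w * ρ) (by rw [mul_pow, kap_sq hw.le, hρ, ← ef_eq])
    (Af_eq hw hv) r η t u p q s
  have k2 := EE_cyl hx (kap_sq hw.le) (Af_eq (α := 0) hw (by simp)) 1 (ρ * (1 + η) - 1) (ρ * t)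
    (ρ * u) (2 * w * (ρ * (Af α w * p - (Af α w - xf w) * (1 + η))))
    (2 * w * (ρ * (Af α w * q - 2 * (Af α w - xf w) * Af α w * p
      - (Af α w - xf w) ^ 2 * (1 + η)))) (ρ * (r * s - (Af α w - xf w) * t))
  rw [Af_zero] at k2
  refine mul_left_cancel₀ (mul_ne_zero (by norm_num : (4 : ℂ) ≠ 0) hε) ?_
  have k3 : ∀ z, 4 * ef 0 w * ((1 - α * w) * z) = 4 * ef α w * z := fun z => by
    rw [ef_eq α w]; ring
  rw [← k2, k3, ← k1]
  generalize Af α w = A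
  generalize xf w = x at hx
  have e1 : kap w * (x * (2 * w * (ρ * (A * p - (A - x) * (1 + η))) - (1 + (ρ * (1 + η) - 1)))) =
      kap w * ρ * (A * (p - (1 + η))) := by
    linear_combination kap w * ρ * (A * p - (A - x) * (1 + η)) * hx
  have e2 : kap w * (x * (2 * w * (ρ * (A * q - 2 * (A - x) * A * p - (A - x) ^ 2 * (1 + η))) -
      2 * x * (2 * w * (ρ * (A * p - (A - x) * (1 + η)))) + (4 * x - x) * (1 + (ρ * (1 + η) - 1))))
      = kap w * ρ * (A * (q - 2 * A * p + (4 * x - A) * (1 + η))) := by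
    linear_combination kap w * ρ * (A * q - 2 * (A - x) * A * p - (A - x) ^ 2 * (1 + η)
      - 2 * x * (A * p - (A - x) * (1 + η))) * hx
  rw [e1, e2]
  congr 1 <;> ring

end prof

/-- frames of round cylinders -/
structure IsCyl (F : Frame) : Prop where
  c : F.c = 0
  β : F.β = fun _ => 1

lemma isCyl_cylF : IsCyl cylF := ⟨rfl, rfl⟩

lemma IsCyl.rot {F : Frame} (h : IsCyl F) {Q : Matrix (Fin 3) (Fin 3) ℂ} (hQ : Qᵀ * Q = 1) :
    IsCyl (F.rot Q hQ) := ⟨h.c, h.β⟩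

namespace IsCyl
variable {F : Frame} (hF : IsCyl F) {α τ : ℂ} {w : ℝ} (hw : 0 < w) (hv : 1 - α * w ≠ 0)
  (hτ : τ ^ 2 = ef α w) (θ : ℝ) {η : ℂ} (hl : 1 + ef α w * (1 + η) ^ 2 ≠ 0) (r t u p q s : ℂ)
include hF

lemma G_eq (θ : ℝ) (t : ℂ) : F.G θ t = si t := by simp [Frame.G, hF.c, hF.β]

include hw hv hτ hl

/-- the shrinker operator on a cylindrical end -/
theorem PP_eq : PP (F.X w θ (τ * (1 + η)))
    (F.a w θ (τ * (1 + η)) (τ * (Af α w * (p - (1 + η))))) (F.b w θ (τ * (1 + η)) (τ * t))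
    (F.aa w θ (τ * (1 + η)) (τ * (Af α w * (p - (1 + η))))
      (τ * (Af α w * (q - 2 * Af α w * p + (4 * xf w - Af α w) * (1 + η)))))
    (F.ab w θ (τ * (1 + η)) (τ * (Af α w * (p - (1 + η)))) (τ * t) (τ * (r * s - Af α w * t)))
    (F.bb w θ (τ * (1 + η)) (τ * t) (τ * u)) =
      F.sg θ * (-16 * ef α w * pE (Af α w) (xf w) (ef α w) r η t u p q s /
        (rt w * (1 + ef α w * (1 + η) ^ 2) ^ 6)) := by
  rw [F.PP_EE θ _ _ _ _ _ hw (by rwa [mul_pow, hτ]), hF.c, hF.β, deriv_const,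
    EE_cyl (xf_eq hw) hτ (Af_eq hw hv), P218CN.lam, mul_pow, hτ]
  ring

theorem gram_eq : gram (F.a w θ (τ * (1 + η)) (τ * (Af α w * (p - (1 + η)))))
    (F.b w θ (τ * (1 + η)) (τ * t)) = 16 * ef α w * ((1 + ef α w * (1 + η) ^ 2) ^ 2 *
      ((1 + η) ^ 2 + t ^ 2) + Af α w * (1 + η) ^ 2 * (p - (1 + η)) ^ 2) /
        (1 + ef α w * (1 + η) ^ 2) ^ 4 := by
  have hA := Af_eq hw hv
  rw [F.gram_dd θ _ _ hw (by rwa [mul_pow, hτ]), hF.c, hF.β]
  simp only [P218CN.dd, P218CN.gg, P218CN.lam, mul_pow τ, hτ]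
  congr 1
  rw [← hτ] at hA ⊢
  linear_combination 16 * τ ^ 2 * Af α w * (1 + η) ^ 2 * (p - (1 + η)) ^ 2 * hA

theorem X_triple : F.X w θ (τ * (1 + η)) ⬝ᵥ F.a w θ (τ * (1 + η)) (τ * (Af α w * (p - (1 + η))))
    ⨯₃ F.b w θ (τ * (1 + η)) (τ * t) = F.sg θ * (2 * (1 + η) * (p - (1 + η)) /
      (rt w * (1 + ef α w * (1 + η) ^ 2) ^ 2)) := by
  have hA := Af_eq hw hv
  have hr := rt_ne hw
  rw [F.X_triple θ _ _ hw (by rwa [mul_pow, hτ]), hF.G_eq]
  simp only [d1, si, mul_pow τ, hτ]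
  rw [← hτ] at hA hl ⊢
  rw [← rt_sq hw.le] at hA ⊢
  congr 1
  field_simp
  linear_combination (1 + η) * (p - (1 + η)) * hA

end IsCyl

end Vale.Agent.P218XI
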