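import Vale.Agent.P218XI.Xi

/-! Jets of `Ξ` on strips and at points; the geometric quantities in terms of the angle. -/

open scoped Matrix Topology Real ContDiff
open Complex Filter Set

noncomputable section

namespace Vale.Agent.P218XI

open Vale.Agent.P218VA

section cont
variable {Y : Type*} [TopologicalSpace Y] {S : Set Y} {t t1 t2 t12 x y z : Y → ℂ}

lemma contOn_co (ht : ContinuousOn t S) (h : ∀ p ∈ S, 1 + t p ^ 2 ≠ 0) :
    ContinuousOn (fun p => co (t p)) S := by unfold co; fun_prop (disch := assumption)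

lemma contOn_si (ht : ContinuousOn t S) (h : ∀ p ∈ S, 1 + t p ^ 2 ≠ 0) :
    ContinuousOn (fun p => si (t p)) S := by unfold si; fun_prop (disch := assumption)

lemma contOn_d1 (ht : ContinuousOn t S) (h : ∀ p ∈ S, 1 + t p ^ 2 ≠ 0) (h1 : ContinuousOn t1 S) :
    ContinuousOn (fun p => d1 (t p) (t1 p)) S := by unfold d1; fun_prop (disch := assumption)

lemma contOn_d2 (ht : ContinuousOn t S) (h : ∀ p ∈ S, 1 + t p ^ 2 ≠ 0) (h1 : ContinuousOn t1 S)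
    (h2 : ContinuousOn t2 S) (h12 : ContinuousOn t12 S) :
    ContinuousOn (fun p => d2 (t p) (t1 p) (t2 p) (t12 p)) S := by
  have h' : ∀ p ∈ S, (1 + t p ^ 2) ^ 2 ≠ 0 := fun p hp => pow_ne_zero _ (h p hp)
  unfold d2; fun_prop (disch := assumption)

lemma contOn_vec (hx : ContinuousOn x S) (hy : ContinuousOn y S) (hz : ContinuousOn z S) :
    ContinuousOn (fun p => (![x p, y p, z p] : C3)) S :=
  continuousOn_pi.2 fun i => by fin_cases i <;> assumption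

end cont

/-- the shrinker equation for the angle -/
def Eang {R : Type*} [CommRing R] (w G H Gθ φw φθ φww φwθ φθθ : R) : R :=
  -(w * G * (φθ ^ 2 + G ^ 2) * (6 * φw + 8 * w ^ 2 * φw ^ 3 + 4 * w * φww))
    + 8 * w ^ 2 * φw * φθ * (2 * w * φw ^ 2 * φθ * G + G * φwθ - φw * φθ * H)
    + (1 + 4 * w ^ 2 * φw ^ 2) * (-(2 * w * (φθ ^ 2 + G ^ 2) * φw * G) - G * (φθθ - G * H)
      + φθ * (2 * φθ * H + Gθ))
    + 4 * w ^ 2 * (φθ ^ 2 + G ^ 2 * (1 + 4 * w ^ 2 * φw ^ 2)) * φw * G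

namespace Frame
variable (F : Frame)

section cont
variable {Y : Type*} [TopologicalSpace Y] {S : Set Y} {t : Y → ℂ} {θ : Y → ℝ} {y : Y → C3}

lemma contOn_R (hθ : ContinuousOn θ S) (ht : ContinuousOn t S) (h : ∀ p ∈ S, 1 + t p ^ 2 ≠ 0)
    (hy : ContinuousOn y S) : ContinuousOn (fun p => F.R (θ p) (t p) *ᵥ y p) S := by
  have k := continuousOn_pi.1 hy
  have hc := contOn_co ht h
  have hs := contOn_si ht h
  have h1 := F.γ_sm.continuous.comp_continuousOn hθ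
  have h2 := F.n_sm.continuous.comp_continuousOn hθ
  have h3 := F.T_sm.continuous.comp_continuousOn hθ
  simp only [R_mulVec, u, v]
  exact (((k 0).smul ((hc.smul h1).add (hs.smul h2))).add
    ((k 1).smul ((hc.smul h2).sub (hs.smul h1)))).add ((k 2).smul h3)

lemma contOn_G (hθ : ContinuousOn θ S) (ht : ContinuousOn t S) (h : ∀ p ∈ S, 1 + t p ^ 2 ≠ 0) :
    ContinuousOn (fun p => F.G (θ p) (t p)) S :=
  (continuousOn_const.mul (contOn_co ht h)).add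
    ((F.β_sm.continuous.comp_continuousOn hθ).mul (contOn_si ht h))

lemma contOn_H (hθ : ContinuousOn θ S) (ht : ContinuousOn t S) (h : ∀ p ∈ S, 1 + t p ^ 2 ≠ 0) :
    ContinuousOn (fun p => F.H (θ p) (t p)) S :=
  ((F.β_sm.continuous.comp_continuousOn hθ).mul (contOn_co ht h)).sub
    (continuousOn_const.mul (contOn_si ht h))

end cont

/-- the jets of `Ξ (w, θ, t (w, θ))` on a strip -/
theorem jet2 {I : Set ℝ} (hI : ∀ w ∈ I, 0 < w) {t tw tθ tww twθ tθθ : ℝ × ℝ → ℂ}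
    (hJ : Jet2 I t tw tθ tww twθ tθθ) (h : ∀ p ∈ I ×ˢ (univ : Set ℝ), 1 + t p ^ 2 ≠ 0) :
    Jet2 I (fun p => F.X p.1 p.2 (t p)) (fun p => F.a p.1 p.2 (t p) (tw p))
      (fun p => F.b p.1 p.2 (t p) (tθ p)) (fun p => F.aa p.1 p.2 (t p) (tw p) (tww p))
      (fun p => F.ab p.1 p.2 (t p) (tw p) (tθ p) (twθ p))
      (fun p => F.bb p.1 p.2 (t p) (tθ p) (tθθ p)) := by
  have c0 := hJ.j0.c0
  have hθ : ContinuousOn (fun p : ℝ × ℝ => p.2) (I ×ˢ univ) := continuousOn_snd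
  have hr : ContinuousOn (fun p : ℝ × ℝ => rt p.1) (I ×ˢ univ) :=
    (continuous_rt.comp continuous_fst).continuousOn
  have hr0 : ∀ p ∈ I ×ˢ (univ : Set ℝ), rt p.1 ≠ 0 := fun p hp => rt_ne (hI _ hp.1)
  have hr3 : ∀ p ∈ I ×ˢ (univ : Set ℝ), 2 * rt p.1 ^ 3 ≠ 0 := fun p hp =>
    mul_ne_zero two_ne_zero (pow_ne_zero _ (hr0 p hp))
  have e1 := contOn_d1 c0 h hJ.j0.c1
  have e2 := contOn_d1 c0 h hJ.j0.c2
  have e11 := contOn_d2 c0 h hJ.j0.c1 hJ.j0.c1 hJ.j1.c1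
  have e12 := contOn_d2 c0 h hJ.j0.c1 hJ.j0.c2 hJ.j1.c2
  have e22 := contOn_d2 c0 h hJ.j0.c2 hJ.j0.c2 hJ.j2.c2
  have eG := F.contOn_G hθ c0 h
  have eH := F.contOn_H hθ c0 h
  have es := contOn_si c0 h
  have eβ : ContinuousOn (fun p : ℝ × ℝ => deriv F.β p.2) (I ×ˢ univ) :=
    F.continuous_dβ.comp_continuousOn hθ
  have kX : ContinuousOn (fun p : ℝ × ℝ => F.X p.1 p.2 (t p)) (I ×ˢ univ) :=
    F.contOn_R hθ c0 h (contOn_vec (by fun_prop) continuousOn_const continuousOn_const)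
  have ka : ContinuousOn (fun p : ℝ × ℝ => F.a p.1 p.2 (t p) (tw p)) (I ×ˢ univ) :=
    F.contOn_R hθ c0 h (contOn_vec (by fun_prop (disch := assumption)) (by fun_prop)
      continuousOn_const)
  have kb : ContinuousOn (fun p : ℝ × ℝ => F.b p.1 p.2 (t p) (tθ p)) (I ×ˢ univ) :=
    F.contOn_R hθ c0 h (contOn_vec continuousOn_const (by fun_prop) (by fun_prop))
  have kaa : ContinuousOn (fun p : ℝ × ℝ => F.aa p.1 p.2 (t p) (tw p) (tww p)) (I ×ˢ univ) :=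
    F.contOn_R hθ c0 h (contOn_vec (by fun_prop (disch := assumption))
      (by fun_prop (disch := assumption)) continuousOn_const)
  have kab : ContinuousOn (fun p : ℝ × ℝ => F.ab p.1 p.2 (t p) (tw p) (tθ p) (twθ p))
      (I ×ˢ univ) :=
    F.contOn_R hθ c0 h (contOn_vec (by fun_prop) (by fun_prop (disch := assumption))
      (by fun_prop (disch := assumption)))
  have kbb : ContinuousOn (fun p : ℝ × ℝ => F.bb p.1 p.2 (t p) (tθ p) (tθθ p)) (I ×ˢ univ) :=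
    F.contOn_R hθ c0 h (contOn_vec (by fun_prop) (by fun_prop) (by fun_prop))
  have i1 : ∀ w ∈ interior I, w ∈ I := fun w hw => interior_subset hw
  refine ⟨⟨kX, ka, kb, fun w hw θ => ?_, fun w hw θ => ?_, fun w hw θ => ?_⟩,
    ⟨ka, kaa, kab, fun w hw θ => ?_, fun w hw θ => ?_, fun w hw θ => ?_⟩,
    ⟨kb, kab, kbb, fun w hw θ => ?_, fun w hw θ => ?_, fun w hw θ => ?_⟩⟩
  · exact F.hasDerivAt_Xw (hI w (i1 w hw)) (hJ.j0.dw w hw θ) (h _ ⟨i1 w hw, mem_univ θ⟩)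
  · exact F.hasDerivAt_Xθ (hJ.j0.dθ w hw θ) (h _ ⟨hw, mem_univ θ⟩)
  · simp only [X, R_per, hJ.j0.per w hw]
  · exact F.hasDerivAt_aw (hI w (i1 w hw)) (hJ.j0.dw w hw θ) (h _ ⟨i1 w hw, mem_univ θ⟩)
      (hJ.j1.dw w hw θ) rfl
  · exact F.hasDerivAt_aθ (hJ.j0.dθ w hw θ) (h _ ⟨hw, mem_univ θ⟩) (hJ.j1.dθ w hw θ)
  · simp only [a, R_per, hJ.j0.per w hw, hJ.j1.per w hw]
  · exact F.hasDerivAt_bw (hI w (i1 w hw)) (hJ.j0.dw w hw θ) (h _ ⟨i1 w hw, mem_univ θ⟩)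
      (hJ.j2.dw w hw θ)
  · exact F.hasDerivAt_bθ (hJ.j0.dθ w hw θ) (h _ ⟨hw, mem_univ θ⟩) (hJ.j2.dθ w hw θ) rfl
  · simp only [b, R_per, G_per, hJ.j0.per w hw, hJ.j2.per w hw]

section smooth
variable {D : Type*} [NormedAddCommGroup D] [NormedSpace ℝ D] {k : WithTop ℕ∞} {w θ : D → ℝ}
  {t : D → ℂ} {p : D}

lemma contDiffAt_u (hk : k ≤ ∞) (hθ : ContDiffAt ℝ k θ p) (ht : ContDiffAt ℝ k t p)
    (h : 1 + t p ^ 2 ≠ 0) : ContDiffAt ℝ k (fun q => F.u (θ q) (t q)) p := by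
  have hl : ContDiffAt ℝ k (fun q => 1 + t q ^ 2) p := contDiffAt_const.add (ht.pow 2)
  exact (contDiffAt_csmul (contDiffAt_cdiv (contDiffAt_const.sub (ht.pow 2)) hl h)
    ((F.γ_sm.of_le hk).contDiffAt.comp p hθ)).add
    (contDiffAt_csmul (contDiffAt_cdiv (contDiffAt_const.mul ht) hl h)
      ((F.n_sm.of_le hk).contDiffAt.comp p hθ))

lemma contDiffAt_X (hk : k ≤ ∞) (hw : ContDiffAt ℝ k w p) (hθ : ContDiffAt ℝ k θ p)
    (ht : ContDiffAt ℝ k t p) (h0 : 0 < w p) (h : 1 + t p ^ 2 ≠ 0) :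
    ContDiffAt ℝ k (fun q => F.X (w q) (θ q) (t q)) p := by
  simp only [X_eq]
  exact contDiffAt_csmul (contDiffAt_const.mul (((contDiffAt_rt h0).of_le hk).comp p hw))
    (F.contDiffAt_u hk hθ ht h)

end smooth

section point
variable {t : ℝ × ℝ → ℂ} {p : ℝ × ℝ}

lemma pd_X1 (ht : ContDiffAt ℝ 1 t p) (h0 : 0 < p.1) (h : 1 + t p ^ 2 ≠ 0) :
    pd (fun q : ℝ × ℝ => F.X q.1 q.2 (t q)) (1, 0) p = F.a p.1 p.2 (t p) (pd t (1, 0) p) ∧
    pd (fun q : ℝ × ℝ => F.X q.1 q.2 (t q)) (0, 1) p = F.b p.1 p.2 (t p) (pd t (0, 1) p) := by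
  obtain ⟨w, θ⟩ := p
  have hX := (F.contDiffAt_X (by exact_mod_cast le_top) contDiffAt_fst contDiffAt_snd ht h0
    h).differentiableAt one_ne_zero
  have hd := ht.differentiableAt one_ne_zero
  exact ⟨(hasDerivAt_fst hX).unique (F.hasDerivAt_Xw h0 (hasDerivAt_fst hd) h),
    (hasDerivAt_snd hX).unique (F.hasDerivAt_Xθ (hasDerivAt_snd hd) h)⟩

lemma pd_X2 (ht : ContDiffAt ℝ 2 t p) (h0 : 0 < p.1) (h : 1 + t p ^ 2 ≠ 0) :
    pd (pd (fun q : ℝ × ℝ => F.X q.1 q.2 (t q)) (1, 0)) (1, 0) p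
      = F.aa p.1 p.2 (t p) (pd t (1, 0) p) (pd (pd t (1, 0)) (1, 0) p) ∧
    pd (pd (fun q : ℝ × ℝ => F.X q.1 q.2 (t q)) (1, 0)) (0, 1) p
      = F.ab p.1 p.2 (t p) (pd t (1, 0) p) (pd t (0, 1) p) (pd (pd t (1, 0)) (0, 1) p) ∧
    pd (pd (fun q : ℝ × ℝ => F.X q.1 q.2 (t q)) (0, 1)) (0, 1) p
      = F.bb p.1 p.2 (t p) (pd t (0, 1) p) (pd (pd t (0, 1)) (0, 1) p) := by
  have hX := F.contDiffAt_X (by norm_cast) contDiffAt_fst contDiffAt_snd ht h0 h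
  have ev : ∀ᶠ q in 𝓝 p,
      pd (fun q : ℝ × ℝ => F.X q.1 q.2 (t q)) (1, 0) q = F.a q.1 q.2 (t q) (pd t (1, 0) q) ∧
      pd (fun q : ℝ × ℝ => F.X q.1 q.2 (t q)) (0, 1) q = F.b q.1 q.2 (t q) (pd t (0, 1) q) := by
    have hc : ContinuousAt (fun q => 1 + t q ^ 2) p :=
      continuousAt_const.add (ht.continuousAt.pow 2)
    filter_upwards [ht.eventually (by simp), hc.eventually_ne h,
      continuous_fst.continuousAt.eventually (lt_mem_nhds h0)] with q h1 h2 h3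
    exact F.pd_X1 (h1.of_le (by norm_num)) h3 h2
  obtain ⟨w, θ⟩ := p
  have hd := ht.differentiableAt (by norm_num)
  have e1 := (by fun_prop : ContinuousAt (fun s : ℝ => (s, θ)) w).eventually ev
  have e2 := (by fun_prop : ContinuousAt (fun s : ℝ => (w, s)) θ).eventually ev
  refine ⟨(hasDerivAt_fst (differentiableAt_pd hX _)).unique ?_,
    (hasDerivAt_snd (differentiableAt_pd hX _)).unique ?_,
    (hasDerivAt_snd (differentiableAt_pd hX _)).unique ?_⟩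
  · exact (F.hasDerivAt_aw h0 (hasDerivAt_fst hd) h (hasDerivAt_fst (differentiableAt_pd ht _))
      rfl).congr_of_eventuallyEq (e1.mono fun s hs => hs.1)
  · exact (F.hasDerivAt_aθ (hasDerivAt_snd hd) h
      (hasDerivAt_snd (differentiableAt_pd ht _))).congr_of_eventuallyEq (e2.mono fun s hs => hs.1)
  · exact (F.hasDerivAt_bθ (hasDerivAt_snd hd) h (hasDerivAt_snd (differentiableAt_pd ht _))
      rfl).congr_of_eventuallyEq (e2.mono fun s hs => hs.2)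

end point

section alg
variable {w : ℝ} (θ : ℝ) {t : ℂ} (tw tθ tww twθ tθθ : ℂ)

lemma X_dot (hw : 0 ≤ w) (h : 1 + t ^ 2 ≠ 0) : F.X w θ t ⬝ᵥ F.X w θ t = 4 * w := by
  rw [X, dot_rot (F.R_orth θ h), ← rt_sq hw, dot3]
  simp
  ring

lemma wt_X (hw : 0 ≤ w) (h : 1 + t ^ 2 ≠ 0) : wt (F.X w θ t) = cexp (-w) := by
  rw [wt, F.X_dot θ hw h]; congr 1; ring

lemma gram_eq (hw : 0 < w) (h : 1 + t ^ 2 ≠ 0) : gram (F.a w θ t tw) (F.b w θ t tθ)
    = 4 * (d1 t tθ ^ 2 + F.G θ t ^ 2 * (1 + 4 * w ^ 2 * d1 t tw ^ 2)) := by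
  have hr := rt_ne hw
  rw [a, b, gram_rot (F.R_orth θ h), ← rt_sq hw.le]
  simp only [gram, dot3]
  simp
  field_simp
  ring

lemma X_triple (hw : 0 < w) (h : 1 + t ^ 2 ≠ 0) : F.X w θ t ⬝ᵥ F.a w θ t tw ⨯₃ F.b w θ t tθ
    = F.sg θ * (8 * rt w * w * d1 t tw * F.G θ t) := by
  rw [X, a, b, triple_mulVec, F.R_det θ h, ← rt_sq hw.le]
  simp only [dot3, cross0, cross1, cross2]
  simp only [Matrix.cons_val_zero, Matrix.cons_val_one, Matrix.cons_val]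
  ring

lemma Xt_triple (hw : 0 < w) (h : 1 + t ^ 2 ≠ 0) : F.a w θ t tw ⨯₃ F.b w θ t tθ ⬝ᵥ F.Xt w θ t
    = F.sg θ * -(4 * rt w * d1 t 1 * F.G θ t) := by
  have hr := rt_ne hw
  rw [dotProduct_comm, Xt, a, b, triple_mulVec, F.R_det θ h]
  simp only [dot3, cross0, cross1, cross2]
  simp only [Matrix.cons_val_zero, Matrix.cons_val_one, Matrix.cons_val]
  field_simp
  ring

lemma Xt_dot (hw : 0 ≤ w) (h : 1 + t ^ 2 ≠ 0) :
    F.Xt w θ t ⬝ᵥ F.Xt w θ t = 4 * w * d1 t 1 ^ 2 := by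
  rw [Xt, dot_rot (F.R_orth θ h), ← rt_sq hw, dot3]
  simp
  ring

lemma mom1_Xt (hw : 0 < w) (h : 1 + t ^ 2 ≠ 0) :
    mom1 (F.X w θ t) (F.a w θ t tw) (F.b w θ t tθ) (F.Xt w θ t) =
      cexp (-w) / ar (F.a w θ t tw) (F.b w θ t tθ) *
        (16 * w ^ 2 * d1 t tw * d1 t 1 * F.G θ t ^ 2) := by
  rw [mom1, F.wt_X θ hw.le h]
  congr 1
  simp only [mm1, a, b, Xt, sub_dotProduct, smul_dotProduct, dot_rot (F.R_orth θ h)]
  rw [← rt_sq hw.le]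
  simp only [dot3, Matrix.cons_val_zero, Matrix.cons_val_one, Matrix.cons_val, smul_eq_mul]
  ring

/-- the shrinker operator of `Ξ` -/
theorem PP_eq (hw : 0 < w) (h : 1 + t ^ 2 ≠ 0) :
    PP (F.X w θ t) (F.a w θ t tw) (F.b w θ t tθ) (F.aa w θ t tw tww) (F.ab w θ t tw tθ twθ)
      (F.bb w θ t tθ tθθ) = F.sg θ * (4 / rt w) * Eang (w : ℂ) (F.G θ t) (F.H θ t)
        (deriv F.β θ * si t) (d1 t tw) (d1 t tθ) (d2 t tw tw tww) (d2 t tw tθ twθ)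
        (d2 t tθ tθ tθθ) := by
  have hr := rt_ne hw
  rw [X, a, b, aa, ab, bb, PP_rot (F.R_orth θ h), F.R_det θ h, ← rt_sq hw.le]
  simp only [PP, gram, dot3, cross0, cross1, cross2, Eang]
  simp only [Matrix.cons_val_zero, Matrix.cons_val_one, Matrix.cons_val]
  field_simp
  ring

end alg

theorem PPF_eq {t : ℝ × ℝ → ℂ} {p : ℝ × ℝ} (ht : ContDiffAt ℝ 2 t p) (h0 : 0 < p.1)
    (h : 1 + t p ^ 2 ≠ 0) : PPF (1, 0) (0, 1) (fun q : ℝ × ℝ => F.X q.1 q.2 (t q)) p =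
      PP (F.X p.1 p.2 (t p)) (F.a p.1 p.2 (t p) (pd t (1, 0) p))
        (F.b p.1 p.2 (t p) (pd t (0, 1) p))
        (F.aa p.1 p.2 (t p) (pd t (1, 0) p) (pd (pd t (1, 0)) (1, 0) p))
        (F.ab p.1 p.2 (t p) (pd t (1, 0) p) (pd t (0, 1) p) (pd (pd t (1, 0)) (0, 1) p))
        (F.bb p.1 p.2 (t p) (pd t (0, 1) p) (pd (pd t (0, 1)) (0, 1) p)) := by
  obtain ⟨e1, e2⟩ := F.pd_X1 (ht.of_le (by norm_num)) h0 h
  obtain ⟨e3, e4, e5⟩ := F.pd_X2 ht h0 h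
  rw [PPF, e1, e2, e3, e4, e5]

end Frame

end Vale.Agent.P218XI
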